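import Vale.Agent.P002.G2.Point
import Vale.Agent.P002.Bd.ProductCurves

/-!
# P002: genus two, all quasi-unipotent classes
-/

namespace Vale.Agent.P002.G2

open Matrix Filter Topology Vale.Agent.P002.Sb Vale.Agent.P002.Bd
open scoped Matrix.Norms.Operator

set_option backward.isDefEq.respectTransparency false

variable {r s : ℕ}

theorem norm_unitQ : ‖unitQ‖ < 1 := by
  have h1 : Real.sqrt 2 < 2 := by
    rw [Real.sqrt_lt' two_pos]; norm_num
  have h2 : 1 < Real.sqrt 2 := by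
    rw [Real.lt_sqrt zero_le_one]; norm_num
  have e : unitQ = ((Real.sqrt 2 - 1 : ℝ) : ℂ) := by simp [unitQ]
  rw [e, Complex.norm_real, Real.norm_eq_abs, abs_lt]
  constructor <;> linarith

theorem unitQ_ne : unitQ ≠ 0 := fun e => by
  have := unitP_mul_unitQ
  rw [e, mul_zero] at this
  exact zero_ne_one this

theorem scl_zero {α₀ : Matrix (Fin r) (Fin r) ℂ} (h : ∀ a, α₀ a a = 1) : Bd.scl 0 α₀ = 1 := by
  ext a b
  simp only [Bd.scl, of_apply]
  rcases lt_trichotomy a b with hab | hab | hab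
  · rw [if_pos hab.le, zero_pow (by have : a.1 < b.1 := hab; omega), mul_zero, one_apply_ne hab.ne]
  · subst hab; simp [h]
  · rw [if_neg (not_le.2 hab), one_apply_ne hab.ne']

theorem permMatrix_eq (π : Equiv.Perm (Fin r)) : π.permMatrix ℂ = pmat π := by
  ext a b
  simp [Equiv.Perm.permMatrix, PEquiv.toMatrix_apply, pmat, Equiv.toPEquiv_apply]

/-- In genus two the density holds for all bidiagonal representatives. -/
theorem hall_two {k M : ℕ} (hk : 2 ≤ k) (hM : 0 < M) : Bd.Hall 2 s k M := by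
  intro d ε hd hprod hε
  obtain ⟨N, z, w, π, α₀, hN, hNR, hz, hwinj, hw1, hwR, hα₀, hfam⟩ :=
    Bd.exists_base_family (by omega) hM d ε hd hprod hε
  obtain ⟨lam, hl, hl1, hl0, hne⟩ := exists_lam hk
  have hw0 : ∀ a, w a ≠ 0 := fun a =>
    Finset.prod_ne_zero_iff.1 (hw1 ▸ one_ne_zero) a (Finset.mem_univ a)
  let o : Fin k := ⟨0, by omega⟩
  have hnear := sys_zero_near hk hl.injective hl1 hl0 hne hw0 hz π o
  let B : ℂ → Matrix (Fin k) (Fin k) ℂ := fun τ => z • (Bd.scl τ α₀ * π.permMatrix ℂ)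
  have hB : Continuous B := by
    refine Continuous.const_smul (Continuous.mul ?_ continuous_const) z
    refine continuous_matrix fun a b => ?_
    simp only [Bd.scl, of_apply]
    split_ifs
    · exact continuous_const.mul (continuous_id.pow _)
    · exact continuous_const
  have hB0 : B 0 = z • pmat π := by simp [B, scl_zero hα₀, permMatrix_eq]
  have hpow : Tendsto (fun n : ℕ => unitQ ^ n) atTop (𝓝 0) :=
    tendsto_pow_atTop_nhds_zero_of_norm_lt_one norm_unitQ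
  have ht := (hB.tendsto 0).comp hpow
  rw [hB0] at ht
  obtain ⟨n, hn⟩ := (ht.eventually hnear).exists
  set τ := unitQ ^ n with hτdef
  have hτ : τ ∈ RM (2 * k * M) := pow_mem (Bd.unitP_mem_RM _).2 n
  obtain ⟨hdet, hmem, hrel⟩ := hfam τ hτ
  have h2 : 0 < 2 * k * M := by positivity
  refine ⟨τ * N, mul_ne_zero (pow_ne_zero _ unitQ_ne) hN, mul_mem hτ hNR, fun y hy hS =>
    inX_all2 (w := w) (lam := lam) (o := o) (β := B τ) ⟨hk, ⟨?_, hdet, ?_, hrel⟩, hwinj, hw0, hl,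
      hl1, hne, fun ρ Γ h => hn ρ Γ h, ?_, mem_MatR.2 hmem, ?_⟩ hy hS⟩
  · rw [det_diagonal, hw1]
  · exact fun p => by rw [Bd.det_bidiag]; exact hprod p
  · refine mem_MatR.2 fun a b => ?_
    rw [diagonal_apply]
    split_ifs
    exacts [hwR a, zero_mem _]
  · refine fun p => mem_MatR.2 fun a b => ?_
    simp only [Bd.bidiag, of_apply, Pi.smul_apply, smul_eq_mul]
    split_ifs
    · exact Bd.root_mem_RM_of_dvd h2 ⟨2 * k, by ring⟩ (hd p a)
    · rcases hε p a with h | h <;> simp [h, mul_mem hτ hNR, zero_mem]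
    · exact zero_mem _

/-- All quasi-unipotent classes in genus two. -/
theorem vanish_all_classes2 (hr : 2 ≤ r) (c : Fin s → Matrix (Fin r) (Fin r) ℂ)
    (hc1 : ∀ j, (c j).det = 1) (hqu : ∀ j, Bd.QU (c j)) :
    ∃ M : ℕ, 0 < M ∧
      ∀ σ : (Fin 2 × Bool) ⊕ Fin s → Matrix (Fin r) (Fin r) ℂ, (∀ k, (σ k).det = 1) →
      (∀ j, Bd.Cj (c j) (σ (Sum.inr j))) →
      rel (fun N => N⁻¹) (fun k => σ (Sum.inl k)) * (List.ofFn fun j => σ (Sum.inr j)).prod = 1 →
      ((∀ U : Submodule ℂ (Fin r → ℂ), (∀ k, ∀ x ∈ U, σ k *ᵥ x ∈ U) →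
          ∃ V : Submodule ℂ (Fin r → ℂ), (∀ k, ∀ x ∈ V, σ k *ᵥ x ∈ V) ∧ IsCompl U V) ∨
        (∀ m : Matrix (Fin r) (Fin r) ℂ, (∀ k, m * σ k = σ k * m) →
          ∃ z : ℂ, m = z • (1 : Matrix (Fin r) (Fin r) ℂ))) →
      ∀ f : MvPolynomial (((Fin 2 × Bool) ⊕ Fin s) × Fin r × Fin r) ℂ,
      (∀ τ : (Fin 2 × Bool) ⊕ Fin s → Matrix (Fin r) (Fin r) ℂ,
        (∀ k a b, τ k a b ∈ RM M) → (∀ k, (τ k).det = 1) → (∀ j, Bd.Cj (c j) (τ (Sum.inr j))) →
        rel (fun N => N⁻¹) (fun k => τ (Sum.inl k)) * (List.ofFn fun j => τ (Sum.inr j)).prod = 1 →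
        Bd.NoInvariant τ → MvPolynomial.eval (fun v => τ v.1 v.2.1 v.2.2) f = 0) →
      MvPolynomial.eval (fun v => σ v.1 v.2.1 v.2.2) f = 0 := by
  obtain ⟨M₀, d, ε, hM₀, hd, hprod, hε, hreps⟩ := Bd.exists_reps (by omega) c hc1 hqu
  obtain ⟨N, hN, hNR, hall⟩ := hall_two hr hM₀ d ε hd hprod hε
  have hM : 0 < 2 * r * M₀ := by positivity
  refine ⟨2 * r * M₀, hM, fun σ hdet hcl hrel' hσ f hf => ?_⟩
  refine Bd.vanish_classes le_rfl hr (D := fun p => Bd.bidiag (d p) (N • ε p))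
    (fun j => by rw [Bd.det_bidiag]; exact hprod j) (fun j => mem_MatR.2 fun a b => ?_) hall
    (fun j m => hreps N hN j m) hdet hcl hrel' hσ f hf
  simp only [Bd.bidiag, of_apply, Pi.smul_apply, smul_eq_mul]
  split_ifs
  · exact Bd.root_mem_RM_of_dvd hM ⟨2 * r, by ring⟩ (hd j a)
  · rcases hε j a with h | h <;> simp [h, hNR, zero_mem]
  · exact zero_mem _

end Vale.Agent.P002.G2
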