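import Vale.Agent.P002.G2.Witness

/-!
# P002: the linear system of the genus two tangent computation

The system depends on the seed matrix `B`.  It has only the zero solution when `B` is a multiple of a
permutation matrix, hence also for all `B` nearby.
-/

namespace Vale.Agent.P002.G2

open Matrix Filter Topology
open scoped Matrix.Norms.Operator

variable {r : ℕ}

/-- The derivative of `X ^ m` in the direction `Y`. -/
def dpow (X Y : Matrix (Fin r) (Fin r) ℂ) (m : ℕ) : Matrix (Fin r) (Fin r) ℂ :=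
  ∑ l ∈ Finset.range m, X ^ (m - 1 - l) * Y * X ^ l

theorem dpow_succ (X Y : Matrix (Fin r) (Fin r) ℂ) (m : ℕ) :
    dpow X Y (m + 1) = X * dpow X Y m + Y * X ^ m := by
  unfold dpow
  rw [Finset.sum_range_succ, Finset.mul_sum]
  congr 1
  · refine Finset.sum_congr rfl fun l hl => ?_
    rw [Finset.mem_range] at hl
    rw [← mul_assoc, ← mul_assoc, ← pow_succ', show m + 1 - 1 - l = m - 1 - l + 1 by omega]
  · simp

theorem dpow_zero (X Y : Matrix (Fin r) (Fin r) ℂ) : dpow X Y 0 = 0 := by simp [dpow]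

theorem dpow_one (X Y : Matrix (Fin r) (Fin r) ℂ) : dpow X Y 1 = Y := by simp [dpow]

theorem dpow_comm (X V : Matrix (Fin r) (Fin r) ℂ) : ∀ m,
    dpow X (X * V - V * X) m = X ^ m * V - V * X ^ m
  | 0 => by simp [dpow_zero]
  | m + 1 => by
    rw [dpow_succ, dpow_comm X V m, pow_succ' X m]
    simp only [mul_sub, sub_mul, mul_assoc]
    abel

theorem dpow_add (X Y Y' : Matrix (Fin r) (Fin r) ℂ) (m : ℕ) :
    dpow X (Y + Y') m = dpow X Y m + dpow X Y' m := by
  simp only [dpow, mul_add, add_mul, Finset.sum_add_distrib]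

theorem dpow_smul (c : ℂ) (X Y : Matrix (Fin r) (Fin r) ℂ) (m : ℕ) :
    dpow X (c • Y) m = c • dpow X Y m := by
  simp only [dpow, Matrix.mul_smul, Matrix.smul_mul, Finset.smul_sum]

/-- The permutation matrix with ones at `(x, σ x)`. -/
def pmat (σ : Equiv.Perm (Fin r)) : Matrix (Fin r) (Fin r) ℂ :=
  of fun x y => if σ x = y then 1 else 0

theorem mul_pmat (σ : Equiv.Perm (Fin r)) (M : Matrix (Fin r) (Fin r) ℂ) (x y : Fin r) :
    (M * pmat σ) x y = M x (σ⁻¹ y) := by
  rw [Matrix.mul_apply, Finset.sum_eq_single (σ⁻¹ y)]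
  · simp [pmat]
  · intro a _ ha
    simp only [pmat, of_apply]
    rw [if_neg (fun e => ha (by rw [← e, pl])), mul_zero]
  · simp

/-- The equations on the deformation `(ρ, Γ)` of the lag matrix and of the seed matrix. -/
structure Sys (A : Matrix (Fin r) (Fin r) ℂ) (w : Fin r → ℂ) (o : Fin r)
    (B ρ Γ : Matrix (Fin r) (Fin r) ℂ) : Prop where
  diag0 : ∀ x, ρ x x = 0
  fix : ∀ y, ρ o y = 0
  word : ∀ x y, ρ y x * B x y + A y x * Γ x y = 0
  twist : ∀ m : ℕ, 1 ≤ m → ∀ x, (dpow A ρ m * B + A ^ m * Γ) x x = 0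
  power : ∀ k : ℕ, trace (ρ * A ^ k) = 0
  cycle : ∀ (L : ℕ) (x : Fin r),
    (ρ * (diagonal w * B) ^ L + A * dpow (diagonal w * B) (diagonal w * Γ) L) x x = 0

theorem Sys.smul {A B ρ Γ : Matrix (Fin r) (Fin r) ℂ} {w : Fin r → ℂ} {o : Fin r}
    (h : Sys A w o B ρ Γ) (c : ℂ) : Sys A w o B (c • ρ) (c • Γ) where
  diag0 x := by simp [h.diag0]
  fix y := by simp [h.fix]
  word x y := by
    simp only [Matrix.smul_apply, smul_eq_mul]
    linear_combination c * h.word x y
  twist m hm x := by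
    rw [dpow_smul, Matrix.smul_mul, Matrix.mul_smul, ← smul_add, Matrix.smul_apply, h.twist m hm,
      smul_zero]
  power k := by rw [Matrix.smul_mul, trace_smul, h.power, smul_zero]
  cycle L x := by
    rw [Matrix.smul_mul, Matrix.mul_smul, dpow_smul, Matrix.mul_smul, ← smul_add,
      Matrix.smul_apply, h.cycle, smul_zero]

/-- A primitive of a function with vanishing sums along a cycle. -/
theorem exists_primitive {α : Type*} (σ : Equiv.Perm α) {L : ℕ} (hL : 0 < L)
    (hσ : σ ^ L = 1) (T : α → ℂ) (hT : ∀ x, ∑ j ∈ Finset.range L, T ((σ ^ j) x) = 0) :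
    ∃ d : α → ℂ, ∀ x, d (σ x) - d x = T x := by
  refine ⟨fun x => (L : ℂ)⁻¹ * ∑ j ∈ Finset.range L, (j : ℂ) * T ((σ ^ j) x), fun x => ?_⟩
  have hstep : ∀ j : ℕ, (σ ^ j) (σ x) = (σ ^ (j + 1)) x := fun j => by
    rw [pow_succ, Equiv.Perm.mul_apply]
  obtain ⟨n, rfl⟩ : ∃ n, L = n + 1 := ⟨L - 1, by omega⟩
  have h1 := hT x
  rw [Finset.sum_range_succ'] at h1
  simp only [hstep]
  rw [← mul_sub, Finset.sum_range_succ, Finset.sum_range_succ' (fun j => (j : ℂ) * T ((σ ^ j) x)),
    hσ]
  simp only [pow_zero, Equiv.Perm.one_apply, Nat.cast_zero, zero_mul, add_zero, Nat.cast_add,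
    Nat.cast_one, add_mul, one_mul, Finset.sum_add_distrib] at h1 ⊢
  rw [inv_mul_eq_iff_eq_mul₀ (by exact_mod_cast Nat.succ_ne_zero n)]
  linear_combination -h1

section at_zero

variable {w : Fin r → ℂ} {z : ℂ} {σ : Equiv.Perm (Fin r)}

/-- The powers of the seed are monomial and their derivatives are diagonal multiples of them. -/
theorem mono_pow (T : Fin r → ℂ) (L : ℕ) :
    (∀ x y, ((diagonal w * (z • pmat σ)) ^ L) x y =
        if (σ ^ L) x = y then ∏ j ∈ Finset.range L, w ((σ ^ j) x) * z else 0) ∧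
      dpow (diagonal w * (z • pmat σ)) (diagonal T * (diagonal w * (z • pmat σ))) L =
        diagonal (fun x => ∑ j ∈ Finset.range L, T ((σ ^ j) x)) *
          (diagonal w * (z • pmat σ)) ^ L := by
  set G := diagonal w * (z • pmat σ) with hG
  have hGa : ∀ x y, G x y = if σ x = y then w x * z else 0 := fun x y => by
    simp [hG, diagonal_mul, pmat]
  have hcomm : ∀ f : Fin r → ℂ, G * diagonal f = diagonal (fun x => f (σ x)) * G := fun f => by
    ext x y
    rw [mul_diagonal, diagonal_mul, hGa]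
    split_ifs with e
    · rw [e, mul_comm]
    · ring
  induction L with
  | zero => exact ⟨fun x y => by simp [one_apply], by simp [dpow_zero]⟩
  | succ L ih =>
    refine ⟨fun x y => ?_, ?_⟩
    · rw [pow_succ', Matrix.mul_apply, Finset.sum_eq_single (σ x)
        (fun a _ ha => by rw [hGa, if_neg (Ne.symm ha), zero_mul]) (by simp), hGa, if_pos rfl, ih.1]
      have hs : ∀ j : ℕ, (σ ^ j) (σ x) = (σ ^ (j + 1)) x := fun j => by
        rw [pow_succ, Equiv.Perm.mul_apply]
      simp only [hs]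
      rw [Finset.prod_range_succ' (fun j => w ((σ ^ j) x) * z)]
      simp only [pow_zero, Equiv.Perm.one_apply]
      split_ifs <;> ring
    · rw [dpow_succ, ih.2, pow_succ' G L, ← mul_assoc G, hcomm, mul_assoc _ G (G ^ L),
        mul_assoc (diagonal T) G (G ^ L), ← add_mul, diagonal_add]
      congr 1
      congr 1
      funext x
      rw [Finset.sum_range_succ' (fun j => T ((σ ^ j) x))]
      simp only [pow_succ, Equiv.Perm.mul_apply, pow_zero, Equiv.Perm.one_apply]

/-- At a monomial seed the system is rigid. -/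
theorem sys_zero_at (hr : 2 ≤ r) {lam : Fin r → ℂ} (hlam : Function.Injective lam)
    (hlam1 : ∏ a, lam a = 1) (hlam0 : ∀ a, lam a ≠ 0) (hne : ∀ x y, hC lam x y ≠ 0)
    (hw : ∀ x, w x ≠ 0) (hz : z ≠ 0) {o : Fin r} {ρ Γ : Matrix (Fin r) (Fin r) ℂ}
    (h : Sys (hC lam) w o (z • pmat σ) ρ Γ) : ρ = 0 ∧ Γ = 0 := by
  classical
  set A := hC lam with hA
  set B := z • pmat σ with hBdef
  have hB : ∀ x y, B x y = if σ x = y then z else 0 := fun x y => by simp [hBdef, pmat]
  have hΓ0 : ∀ x y, σ x ≠ y → Γ x y = 0 := fun x y e => by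
    have := h.word x y
    rw [hB, if_neg e, mul_zero, zero_add] at this
    exact (mul_eq_zero.1 this).resolve_left (hne _ _)
  set T : Fin r → ℂ := fun x => Γ x (σ x) / z with hT
  have hΓ : diagonal w * Γ = diagonal T * (diagonal w * B) := by
    ext x y
    rw [diagonal_mul, diagonal_mul, diagonal_mul, hB]
    split_ifs with e
    · subst e; simp only [hT]; field_simp
    · rw [hΓ0 x y e]; ring
  set L := orderOf σ with hLdef
  have hL : 0 < L := orderOf_pos σ
  have hσ : σ ^ L = 1 := pow_orderOf_eq_one σ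
  have hsum : ∀ x, ∑ j ∈ Finset.range L, T ((σ ^ j) x) = 0 := by
    intro x
    obtain ⟨hp, hd⟩ := mono_pow (w := w) (z := z) (σ := σ) T L
    have := h.cycle L x
    rw [hΓ, hd] at this
    have hG : ∀ a b, ((diagonal w * B) ^ L) a b =
        if a = b then ∏ j ∈ Finset.range L, w ((σ ^ j) a) * z else 0 := fun a b => by
      rw [hp, hσ]; rfl
    rw [Matrix.add_apply, Matrix.mul_apply, Finset.sum_eq_single x (fun a _ ha => by
        rw [hG, if_neg ha, mul_zero]) (by simp), h.diag0, zero_mul, zero_add, Matrix.mul_apply,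
      Finset.sum_eq_single x (fun a _ ha => by
        rw [diagonal_mul, hG, if_neg ha, mul_zero, mul_zero]) (by simp), diagonal_mul, hG,
      if_pos rfl] at this
    exact (mul_eq_zero.1 ((mul_eq_zero.1 this).resolve_left (hne x x))).resolve_right
      (Finset.prod_ne_zero_iff.2 fun j _ => mul_ne_zero (hw _) hz)
  obtain ⟨d, hd⟩ := exists_primitive σ hL hσ T hsum
  set ρ' := ρ - (A * diagonal d - diagonal d * A) with hρ'
  have hΓd : Γ = B * diagonal d - diagonal d * B := by
    ext x y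
    rw [Matrix.sub_apply, mul_diagonal, diagonal_mul, hB]
    split_ifs with e
    · subst e
      have := hd x
      simp only [hT] at this
      field_simp at this
      linear_combination -this
    · rw [hΓ0 x y e]; ring
  have hρ0 : ∀ x, ρ' (σ x) x = 0 := fun x => by
    have := h.word x (σ x)
    rw [hΓd, hB, if_pos rfl, Matrix.sub_apply, mul_diagonal, diagonal_mul, hB, if_pos rfl] at this
    have e : z * ρ' (σ x) x = 0 := by
      simp only [hρ', Matrix.sub_apply, mul_diagonal, diagonal_mul]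
      linear_combination this
    exact (mul_eq_zero.1 e).resolve_left hz
  -- `ρ'` is a coboundary
  obtain ⟨hAd, -, hA1, hA2⟩ := (spec_hC lam).adjugate_eq hlam1 hlam0
  have hpow : ∀ k : ℕ, trace (ρ' * A ^ k) = 0 := fun k => by
    rw [hρ', sub_mul, trace_sub, h.power, sub_mul, trace_sub, mul_assoc A, trace_mul_comm A,
      mul_assoc (diagonal d) (A ^ k), ← pow_succ, mul_assoc (diagonal d) A, ← pow_succ', sub_self,
      sub_zero]
  obtain ⟨u, hu⟩ := exists_coboundary (spec_hC lam) hlam1 hlam0 hlam hpow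
  set V := -(adjugate A * u) with hV
  have hρV : ρ' = A * V - V * A := by
    rw [hu, hV, mul_neg, neg_mul, sub_neg_eq_add, ← mul_assoc, hA1, one_mul]
    abel
  have hdiag : ∀ m : ℕ, 1 ≤ m → ∀ x, (A ^ m * V - V * A ^ m) x (σ⁻¹ x) = 0 := by
    intro m hm x
    have h1 := h.twist m hm x
    have hρeq : ρ = (A * V - V * A) + (A * diagonal d - diagonal d * A) := by
      rw [← hρV, hρ']; abel
    rw [hρeq, dpow_add, dpow_comm, dpow_comm, hΓd] at h1
    have e : (A ^ m * V - V * A ^ m + (A ^ m * diagonal d - diagonal d * A ^ m)) * B +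
        A ^ m * (B * diagonal d - diagonal d * B) =
        (A ^ m * V - V * A ^ m) * B + (A ^ m * B * diagonal d - diagonal d * (A ^ m * B)) := by
      simp only [mul_sub, sub_mul, add_mul, mul_assoc]
      abel
    rw [e, Matrix.add_apply, Matrix.sub_apply (A ^ m * B * diagonal d), mul_diagonal, diagonal_mul,
      mul_comm (d x), sub_self, add_zero, hBdef, Matrix.mul_smul, Matrix.smul_apply,
      mul_pmat, smul_eq_mul] at h1
    exact (mul_eq_zero.1 h1).resolve_left hz
  have hall : AllEqn σ⁻¹ V := by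
    refine eqn_of_comm fun n x => ?_
    have hk : ∀ i, Eqn V x (σ⁻¹ x) i = 0 := by
      have h0 := Matrix.eq_zero_of_forall_pow_sum_mul_pow_eq_zero (f := lam)
        (v := fun i => lam i * Eqn V x (σ⁻¹ x) i) hlam fun k => by
          have := hdiag (k + 1) (by omega) x
          rw [hA, (spec_hC lam).2, conj_pow (Xw_mul_Yw r), diagonal_pow, ← hC, comm_apply] at this
          rw [← this]
          exact Finset.sum_congr rfl fun i _ => by simp [Pi.pow_apply, pow_succ]; ring
      intro i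
      exact (mul_eq_zero.1 (congrFun h0 i)).resolve_left (hlam0 i)
    rw [comm_apply]
    exact Finset.sum_eq_zero fun i _ => by rw [hk i, mul_zero]
  obtain ⟨n, d', hd', hVe⟩ := rigid hr hall
  have hρD : ρ = A * diagonal (d + d') - diagonal (d + d') * A := by
    have e : ρ' = A * diagonal d' - diagonal d' * A := by
      rw [hρV, hVe, mul_add, add_mul, hA, hC_comm lam n]
      abel
    have e2 : diagonal (d + d') = diagonal d + diagonal d' := (diagonal_add _ _).symm
    rw [e2, mul_add, add_mul, show ρ = ρ' + (A * diagonal d - diagonal d * A) by rw [hρ']; abel, e]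
    abel
  have hconst : ∀ y, (d + d') y = (d + d') o := fun y => by
    have := h.fix y
    rw [hρD, Matrix.sub_apply, mul_diagonal, diagonal_mul] at this
    exact sub_eq_zero.1 ((mul_eq_zero.1 (show A o y * ((d + d') y - (d + d') o) = 0 by
      linear_combination this)).resolve_left (hne o y))
  have hρ : ρ = 0 := by
    rw [hρD]
    ext x y
    rw [Matrix.sub_apply, mul_diagonal, diagonal_mul, hconst x, hconst y, Matrix.zero_apply]
    ring
  refine ⟨hρ, ?_⟩
  ext x y
  have := h.word x y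
  rw [hρ, Matrix.zero_apply, zero_mul, zero_add] at this
  exact (mul_eq_zero.1 this).resolve_left (hne _ _)

end at_zero

/-- Near a monomial seed the system is rigid. -/
theorem sys_zero_near (hr : 2 ≤ r) {lam : Fin r → ℂ} (hlam : Function.Injective lam)
    (hlam1 : ∏ a, lam a = 1) (hlam0 : ∀ a, lam a ≠ 0) (hne : ∀ x y, hC lam x y ≠ 0)
    {w : Fin r → ℂ} (hw : ∀ x, w x ≠ 0) {z : ℂ} (hz : z ≠ 0) (σ : Equiv.Perm (Fin r)) (o : Fin r) :
    ∀ᶠ B in 𝓝 (z • pmat σ), ∀ ρ Γ, Sys (hC lam) w o B ρ Γ → ρ = 0 ∧ Γ = 0 := by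
  let M := Matrix (Fin r) (Fin r) ℂ
  let K : Set (M × M) := Metric.sphere (0 : M × M) 1
  have : ProperSpace (M × M) := FiniteDimensional.proper ℂ (M × M)
  have hK : IsCompact K := isCompact_sphere _ _
  have key : ∀ᶠ B in 𝓝 (z • pmat σ), ∀ u ∈ K, ¬ Sys (hC lam) w o B u.1 u.2 := by
    refine hK.eventually_forall_of_forall_eventually fun u hu => ?_
    have hu0 : ¬ Sys (hC lam) w o (z • pmat σ) u.1 u.2 := fun h => by
      obtain ⟨h1, h2⟩ := sys_zero_at hr hlam hlam1 hlam0 hne hw hz h
      have hu' : u = 0 := Prod.ext h1 h2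
      simp [K, hu'] at hu
    have hclosed : IsClosed {p : M × (M × M) | Sys (hC lam) w o p.1 p.2.1 p.2.2} := by
      have e : {p : M × (M × M) | Sys (hC lam) w o p.1 p.2.1 p.2.2} =
          (⋂ x, {p | p.2.1 x x = 0}) ∩ (⋂ y, {p | p.2.1 o y = 0}) ∩
          (⋂ x, ⋂ y, {p | p.2.1 y x * p.1 x y + hC lam y x * p.2.2 x y = 0}) ∩
          (⋂ m, ⋂ (_ : 1 ≤ m), ⋂ x,
            {p | (dpow (hC lam) p.2.1 m * p.1 + hC lam ^ m * p.2.2) x x = 0}) ∩
          (⋂ k : ℕ, {p | trace (p.2.1 * hC lam ^ k) = 0}) ∩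
          (⋂ L : ℕ, ⋂ x, {p | (p.2.1 * (diagonal w * p.1) ^ L +
            hC lam * dpow (diagonal w * p.1) (diagonal w * p.2.2) L) x x = 0}) := by
        ext p
        simp only [Set.mem_ofPred_eq, Set.mem_inter_iff, Set.mem_iInter]
        exact ⟨fun h => ⟨⟨⟨⟨⟨h.diag0, h.fix⟩, h.word⟩, h.twist⟩, h.power⟩, h.cycle⟩,
          fun ⟨⟨⟨⟨⟨a, b⟩, c⟩, d⟩, e⟩, f⟩ => ⟨a, b, c, d, e, f⟩⟩
      rw [e]
      refine ((((?_ : IsClosed _).inter ?_).inter ?_).inter ?_).inter ?_ |>.inter ?_ <;>
        repeat' first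
          | refine isClosed_iInter fun _ => ?_
          | refine isClosed_eq ?_ continuous_const
      all_goals ((try simp only [dpow]); fun_prop)
    exact hclosed.isOpen_compl.eventually_mem hu0
  filter_upwards [key] with B hB ρ Γ hS
  by_contra hne'
  set u : M × M := (ρ, Γ) with hu
  have hu0 : u ≠ 0 := fun e => hne' ⟨congrArg Prod.fst e, congrArg Prod.snd e⟩
  refine hB ((‖u‖⁻¹ : ℂ) • u) ?_ (hS.smul _)
  simp [K, norm_smul, inv_mul_cancel₀ (norm_ne_zero_iff.2 hu0)]

end Vale.Agent.P002.G2
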