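import Vale.Agent.P002.Sb.BaseX
import Vale.Agent.P002.G2.System

/-!
# P002: the moves in genus two and the velocity of the twist along a mixed curve

Besides the slides of words, we use the curve `β α ^ n a ^ m`: twist, slide, rotate the last handle,
flow, and go back.
-/

namespace Vale.Agent.P002.G2

open Matrix Filter Topology Vale.Agent.P002.Sb
open scoped Matrix.Norms.Operator

set_option backward.isDefEq.respectTransparency false

variable {r s : ℕ} {D : Fin s → Matrix (Fin r) (Fin r) ℂ} {O : Subring ℂ}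

theorem ne01 : (0 : Fin 2) ≠ 1 := by decide

theorem lt01 : (0 : Fin 2) < 1 := by decide

theorem mid01 (σ : Tup 2 r ℂ) : mid adjugate 0 1 σ = 1 := by simp [mid, cmList]

theorem rel_two (σ : Tup 2 r ℂ) : rel adjugate σ =
    cm adjugate (σ (0, false)) (σ (0, true)) * cm adjugate (σ (1, false)) (σ (1, true)) := by
  simp [rel, cmList, List.ofFn_succ]

/-- The four handle slots. -/
def quad (x : PT 2 s r ℂ) : Matrix (Fin r) (Fin r) ℂ × Matrix (Fin r) (Fin r) ℂ ×
    Matrix (Fin r) (Fin r) ℂ × Matrix (Fin r) (Fin r) ℂ :=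
  (x (Sum.inl (0, false)), x (Sum.inl (0, true)), x (Sum.inl (1, false)), x (Sum.inl (1, true)))

/-- Replace the four handle slots. -/
def put (x : PT 2 s r ℂ) (a b c d : Matrix (Fin r) (Fin r) ℂ) : PT 2 s r ℂ :=
  Sum.elim (fun k => if k.1 = 0 then bif k.2 then b else a else bif k.2 then d else c)
    fun j => x (Sum.inr j)

theorem pullX_put
    (fa fb fc fd : PT 2 s r ℂ → Matrix (Fin r) (Fin r) ℂ)
    (ha : PolyMat fa) (hb : PolyMat fb) (hc : PolyMat fc) (hd' : PolyMat fd)
    (hX : ∀ x, IsX D x → IsX D (put x (fa x) (fb x) (fc x) (fd x)))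
    (hm : ∀ x : PT 2 s r ℂ, (∀ k, x k ∈ MatR O r) → fa x ∈ MatR O r ∧ fb x ∈ MatR O r ∧
      fc x ∈ MatR O r ∧ fd x ∈ MatR O r) :
    PullX D O fun x => put x (fa x) (fb x) (fc x) (fd x) := by
  refine pullX_of (fun k => ?_) fun x hx => ⟨hX x hx.1, fun k => ?_⟩
  · rcases k with ⟨i, c⟩ | j
    · simp only [put, Sum.elim_inl]
      split_ifs <;> cases c <;> assumption
    · exact polyMat_proj _
  · obtain ⟨h1, h2, h3, h4⟩ := hm x hx.2
    rcases k with ⟨i, c⟩ | j
    · simp only [put, Sum.elim_inl]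
      split_ifs <;> cases c <;> assumption
    · exact hx.2 _

theorem isX_put {x : PT 2 s r ℂ} (hx : IsX D x) {a b c d : Matrix (Fin r) (Fin r) ℂ}
    (h : a.det = 1 ∧ b.det = 1 ∧ c.det = 1 ∧ d.det = 1)
    (hrel : cm adjugate a b * cm adjugate c d =
      cm adjugate (x (Sum.inl (0, false))) (x (Sum.inl (0, true))) *
        cm adjugate (x (Sum.inl (1, false))) (x (Sum.inl (1, true)))) :
    IsX D (put x a b c d) := by
  refine ⟨fun k => ?_, ?_⟩
  · rcases k with ⟨i, e⟩ | j
    · simp only [put, Sum.elim_inl]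
      split_ifs <;> cases e <;> simp [h.1, h.2.1, h.2.2.1, h.2.2.2]
    · exact hx.1 _
  · show rel adjugate (hd (put x a b c d)) * prodC D (put x a b c d) = 1
    rw [rel_two]
    simp only [hd, put, Sum.elim_inl, if_true, if_neg (ne01.symm), cond_false, cond_true]
    rw [hrel]
    have := hx.2
    rwa [relX, rel_two] at this

/-- Rotate the last handle. -/
def rotX (x : PT 2 s r ℂ) : PT 2 s r ℂ :=
  put x (x (Sum.inl (0, false))) (x (Sum.inl (0, true)))
    (x (Sum.inl (1, false)) * x (Sum.inl (1, true)) * adjugate (x (Sum.inl (1, false))))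
    (adjugate (x (Sum.inl (1, false))))

/-- The inverse rotation. -/
def rotX' (x : PT 2 s r ℂ) : PT 2 s r ℂ :=
  put x (x (Sum.inl (0, false))) (x (Sum.inl (0, true))) (adjugate (x (Sum.inl (1, true))))
    (x (Sum.inl (1, true)) * x (Sum.inl (1, false)) * adjugate (x (Sum.inl (1, true))))

theorem pullX_rotX :
    PullX D O (rotX (s := s) (r := r)) ∧ PullX D O (rotX' (s := s) (r := r)) := by
  constructor
  · refine pullX_put _ _ _ _ (polyMat_proj _) (polyMat_proj _)
      (((polyMat_proj _).mul (polyMat_proj _)).mul (polyMat_proj _).adj) (polyMat_proj _).adj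
      (fun x hx => ?_) fun x h => ⟨h _, h _, mul_mem (mul_mem (h _) (h _)) (adjugate_mem_MatR (h _)),
        adjugate_mem_MatR (h _)⟩
    refine isX_put hx ⟨hx.1 _, hx.1 _, by simp [det_adjugate, hx.1], by simp [det_adjugate, hx.1]⟩ ?_
    obtain ⟨c1, c2⟩ := mul_adj_cancel (hx.1 (Sum.inl (1, false)))
    simp only [cm, adjugate_mul_distrib, adjugate_adjugate_of_det (hx.1 _), mul_assoc,
      (cancel_left (hx.1 (Sum.inl (1, false))) _).1, c2, mul_one]
  · refine pullX_put _ _ _ _ (polyMat_proj _) (polyMat_proj _) (polyMat_proj _).adj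
      (((polyMat_proj _).mul (polyMat_proj _)).mul (polyMat_proj _).adj)
      (fun x hx => ?_) fun x h => ⟨h _, h _, adjugate_mem_MatR (h _),
        mul_mem (mul_mem (h _) (h _)) (adjugate_mem_MatR (h _))⟩
    refine isX_put hx ⟨hx.1 _, hx.1 _, by simp [det_adjugate, hx.1], by simp [det_adjugate, hx.1]⟩ ?_
    obtain ⟨c1, c2⟩ := mul_adj_cancel (hx.1 (Sum.inl (1, true)))
    simp only [cm, adjugate_mul_distrib, adjugate_adjugate_of_det (hx.1 _), mul_assoc,
      (cancel_left (hx.1 (Sum.inl (1, true))) _).1]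

theorem rotX'_rotX {x : PT 2 s r ℂ} (hx : ∀ k, (x k).det = 1) : rotX' (rotX x) = x := by
  funext k
  rcases k with ⟨i, c⟩ | j
  · have e := hx (Sum.inl (1, false))
    fin_cases i <;> cases c <;> try rfl
    · show adjugate (adjugate (x (Sum.inl (1, false)))) = _
      exact adjugate_adjugate_of_det e
    · show adjugate (x (Sum.inl (1, false))) *
          (x (Sum.inl (1, false)) * x (Sum.inl (1, true)) * adjugate (x (Sum.inl (1, false)))) *
          adjugate (adjugate (x (Sum.inl (1, false)))) = _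
      simp only [adjugate_adjugate_of_det e, mul_assoc, (mul_adj_cancel e).2, mul_one,
        (cancel_left e _).1, (cancel_left e _).2]
      rfl
  · rfl

/-- `b_i ↦ b_i a_i ^ (-n)`. -/
def tbI (i : Fin 2) (n : ℕ) : PT 2 s r ℂ → PT 2 s r ℂ :=
  onHd fun σ => Function.update σ (i, true) (σ (i, true) * adjugate (σ (i, false)) ^ n)

theorem pow_cancel {x : Matrix (Fin r) (Fin r) ℂ} (hx : x.det = 1) (n : ℕ) :
    adjugate x ^ n * x ^ n = 1 ∧ x ^ n * adjugate x ^ n = 1 := by
  rw [← adjugate_pow]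
  exact (mul_adj_cancel (show (x ^ n).det = 1 by rw [det_pow, hx, one_pow])).symm

theorem pullX_tbI (i : Fin 2) (n : ℕ) : PullX D O (tbI (s := s) (r := r) i n) :=
  pullX_update i true (fun A B => B * adjugate A ^ n)
    ((polyMat_proj _).mul ((polyMat_proj _).adj.pow n))
    (fun _ _ hA hB => mul_mem hB (pow_mem (adjugate_mem_MatR hA) n))
    (fun A B hA hB => by simp [det_adjugate, hA, hB]) fun σ h => by
      set σ' := Function.update σ (i, true) (σ (i, true) * adjugate (σ (i, false)) ^ n) with hσ'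
      have h1 : Vale.Agent.P002.twist i n σ' = σ := by
        funext k
        by_cases hk : k = (i, true)
        · subst hk
          simp [Vale.Agent.P002.twist, σ', mul_assoc, (pow_cancel (h (i, false)) n).1]
        · simp [Vale.Agent.P002.twist, σ', hk]
      have hdet : ∀ k, (σ' k).det = 1 := fun k => by
        simp only [σ', Function.update_apply]
        split_ifs <;> simp [det_adjugate, h]
      rw [← rel_twist_M hdet i n, h1]

theorem tbI_tbX {x : PT 2 s r ℂ} (hx : ∀ k, (x k).det = 1) (i : Fin 2) (n : ℕ) :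
    tbI i n (tbX i n x) = x := by
  funext k
  rcases k with k | j
  · by_cases hk : k = (i, true)
    · subst hk
      simp only [tbI, tbX, onHd, Sum.elim_inl, Vale.Agent.P002.twist, Function.update_self]
      have e1 : Function.update (hd x) (i, true) (hd x (i, true) * hd x (i, false) ^ n) (i, false) =
          hd x (i, false) := Function.update_of_ne (by simp) _ _
      show Function.update (hd x) (i, true) (hd x (i, true) * hd x (i, false) ^ n) (i, true) *
          adjugate (Function.update (hd x) (i, true) (hd x (i, true) * hd x (i, false) ^ n)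
            (i, false)) ^ n = _
      rw [e1, Function.update_self, mul_assoc,
        show hd x (i, false) ^ n * adjugate (hd x (i, false)) ^ n = 1 from
          (pow_cancel (hx (Sum.inl (i, false))) n).2, mul_one]
      rfl
    · show Function.update _ (i, true) _ k = _
      rw [Function.update_of_ne hk]
      exact Function.update_of_ne hk _ _
  · rfl

/-- The admissible moves. -/
inductive Stp (s : ℕ) where
  /-- Slide along a word. -/
  | word (w : List (Ltr s))
  /-- Twist along a power of the lag curve. -/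
  | power (k : ℕ)
  /-- Bring the curve `β α ^ n a ^ m` to the rotated last handle. -/
  | mixed (m n : ℕ)

/-- The steps that are used. -/
def Stp.Ok : Stp s → Prop
  | .mixed m _ => 1 ≤ m
  | _ => True

/-- The handle carrying the curve. -/
def Stp.slot : Stp s → Fin 2
  | .word _ => 0
  | .power _ => 0
  | .mixed _ _ => 1

/-- The power of the twist. -/
def Stp.exp : Stp s → ℕ
  | .power k => k
  | _ => 1

/-- The move. -/
noncomputable def Stp.fwd (D : Fin s → Matrix (Fin r) (Fin r) ℂ) : Stp s → PT 2 s r ℂ → PT 2 s r ℂ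
  | .word w => fwdW 1 D 0 w
  | .power _ => id
  | .mixed m n => rotX ∘ phiX 0 1 ∘ tbX 0 m ∘ tbX 1 n

/-- Its inverse. -/
noncomputable def Stp.bwd (D : Fin s → Matrix (Fin r) (Fin r) ℂ) : Stp s → PT 2 s r ℂ → PT 2 s r ℂ
  | .word w => bwdW 1 D 0 w
  | .power _ => id
  | .mixed m n => tbI 1 n ∘ tbI 0 m ∘ psiX 0 1 ∘ rotX'

theorem det_tbX {x : PT 2 s r ℂ} (hx : ∀ k, (x k).det = 1) (i : Fin 2) (n : ℕ) :
    ∀ k, (tbX i n x k).det = 1 :=
  det_onHd (fun σ h k => by
    simp only [Vale.Agent.P002.twist, Function.update_apply]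
    split_ifs <;> simp [h]) hx

theorem Stp.bwd_fwd (hD : ∀ j, (D j).det = 1) {x : PT 2 s r ℂ} (hx : ∀ k, (x k).det = 1) :
    ∀ t : Stp s, t.bwd D (t.fwd D x) = x
  | .word w => bwdW_fwdW hD lt01 w hx
  | .power _ => rfl
  | .mixed m n => by
    have h1 := det_tbX hx 1 n
    have h2 := det_tbX h1 0 m
    have h3 : ∀ k, (phiX 0 1 (tbX 0 m (tbX 1 n x)) k).det = 1 :=
      det_onHd (fun σ h => det_phiM h) h2
    show tbI 1 n (tbI 0 m (psiX 0 1 (rotX' (rotX (phiX 0 1 (tbX 0 m (tbX 1 n x))))))) = x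
    rw [rotX'_rotX h3]
    have e : psiX 0 1 (phiX 0 1 (tbX 0 m (tbX 1 n x))) = tbX 0 m (tbX 1 n x) := by
      funext k
      rcases k with k | j
      · exact congrFun (psiM_phiM lt01 fun k => h2 (Sum.inl k)) k
      · rfl
    rw [e, tbI_tbX h1, tbI_tbX hx]

theorem Stp.pull (hD : ∀ j, (D j).det = 1) (hDO : ∀ j, D j ∈ MatR O r) :
    ∀ t : Stp s, PullX D O (t.fwd D) ∧ PullX D O (t.bwd D)
  | .word w => pullX_fwdW hD hDO lt01 w
  | .power _ => ⟨pullX_id, pullX_id⟩
  | .mixed m n =>
    ⟨pullX_rotX.1.comp ((pullX_phiX lt01).comp ((pullX_tbX 0 m).comp (pullX_tbX 1 n))),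
      (pullX_tbI 1 n).comp ((pullX_tbI 0 m).comp ((pullX_psiX lt01).comp pullX_rotX.2))⟩

/-- The twist flow of any power. -/
noncomputable def tauK (i : Fin 2) (k : ℕ) (t : ℂ) : PT 2 s r ℂ → PT 2 s r ℂ := onHd (tau i k t)

theorem flow_lemmaK {i : Fin 2} {x₀ : PT 2 s r ℂ} {l : Fin r → ℂ}
    {S S' : Matrix (Fin r) (Fin r) ℂ} (hspec : Spec (x₀ (Sum.inl (i, false))) l S S') (hl : Indep l)
    {f : MvPolynomial (XVar 2 s r) ℂ} (hf : VanX D O f) :
    ∀ᶠ x in 𝓝 x₀, InX D O x → ∀ k t, MvPolynomial.eval (xcoord (tauK i k t x)) f = 0 := by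
  filter_upwards [flow_torusX hspec hl hf] with x hx hV k t
  obtain ⟨P, P', w, hP, haP, hy⟩ := hx hV
  set a := hd x (i, false) with ha
  have hak : a ^ k = P * diagonal (fun b => w b ^ k) * P' := by
    rw [show a = P * diagonal w * P' from haP, conj_pow hP, diagonal_pow]; rfl
  set c := trace (a ^ k) / (r : ℂ)
  have hX : t • tl (a ^ k) = P * diagonal (fun b => t * (w b ^ k - c)) * P' := by
    have e2 : diagonal (fun b => t * (w b ^ k - c)) =
        t • (diagonal (fun b => w b ^ k) - c • (1 : Matrix (Fin r) (Fin r) ℂ)) := by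
      ext b d; by_cases hbd : b = d
      · subst hbd; simp
      · simp [hbd]
    rw [e2, tl, Matrix.mul_smul, Matrix.smul_mul, mul_sub, sub_mul, ← hak, Matrix.mul_smul,
      Matrix.smul_mul, mul_one, hP]
  have e : tauK i k t x = Function.update x (Sum.inl (i, true))
      (x (Sum.inl (i, true)) *
        (P * diagonal (fun b => Complex.exp (t * (w b ^ k - c))) * P')) := by
    funext q
    rw [← exp_diag_conj hP, ← hX]
    rcases q with q | j
    · by_cases hk : q = (i, true)
      · subst hk; simp [tauK, onHd, tau, hd, ha]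
      · simp [tauK, onHd, tau, hd, hk, Function.update_apply]
    · simp [tauK, onHd]
  rw [e]
  refine hy _ ?_
  rw [← Complex.exp_sum, ← Finset.mul_sum, Finset.sum_sub_distrib, Finset.sum_const,
    Finset.card_univ, Fintype.card_fin, nsmul_eq_mul]
  have htr : trace (a ^ k) = ∑ b, w b ^ k := by
    rw [hak, trace_mul_comm, ← mul_assoc, mul_eq_one_comm.1 hP, one_mul, trace_diagonal]
  rcases Nat.eq_zero_or_pos r with hr | hr
  · subst hr; simp
  · simp only [c, htr]
    rw [mul_div_cancel₀ _ (Nat.cast_ne_zero.2 hr.ne'), sub_self, mul_zero, Complex.exp_zero]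

/-- A step: the twist conjugated by the move. -/
noncomputable def GS (D : Fin s → Matrix (Fin r) (Fin r) ℂ) (p : Stp s) (t : ℂ)
    (x : PT 2 s r ℂ) : PT 2 s r ℂ :=
  p.bwd D (tauK p.slot p.exp t (p.fwd D x))

theorem GS_zero (hD : ∀ j, (D j).det = 1) (p : Stp s) {x : PT 2 s r ℂ}
    (hx : ∀ k, (x k).det = 1) : GS D p 0 x = x := by
  have e : tauK p.slot p.exp 0 (p.fwd D x) = p.fwd D x := by
    funext k
    rcases k with k | j
    · show tau p.slot p.exp 0 (hd (p.fwd D x)) k = hd (p.fwd D x) k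
      simp [tau]
    · rfl
  rw [GS, e, Stp.bwd_fwd hD hx]

section smooth

variable {E : Type*} [NormedAddCommGroup E] [NormedSpace ℂ E] {F : E → PT 2 s r ℂ}

theorem contDiff_put {a b c d : E → Matrix (Fin r) (Fin r) ℂ} (hF : ContDiff ℂ 1 F)
    (ha : ContDiff ℂ 1 a) (hb : ContDiff ℂ 1 b) (hc : ContDiff ℂ 1 c) (hd' : ContDiff ℂ 1 d) :
    ContDiff ℂ 1 fun x => put (F x) (a x) (b x) (c x) (d x) := by
  refine contDiff_pi.2 fun k => ?_
  rcases k with ⟨i, e⟩ | j
  · simp only [put, Sum.elim_inl]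
    split_ifs <;> cases e <;> assumption
  · exact contDiff_pi.1 hF _

theorem contDiff_tbX' (hF : ContDiff ℂ 1 F) (i : Fin 2) (n : ℕ) :
    (ContDiff ℂ 1 fun x => tbX i n (F x)) ∧ ContDiff ℂ 1 fun x => tbI i n (F x) := by
  have h := contDiff_pi.1 (contDiff_hd hF)
  constructor <;> refine contDiff_onHd (contDiff_pi.2 fun k => ?_) hF <;>
    simp only [Vale.Agent.P002.twist, Function.update_apply] <;> split_ifs
  · exact (h _).mul ((h _).pow n)
  · exact h k
  · exact (h _).mul ((contDiff_adjugate.comp (h _)).pow n)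
  · exact h k

theorem contDiff_rot (hF : ContDiff ℂ 1 F) :
    (ContDiff ℂ 1 fun x => rotX (F x)) ∧ ContDiff ℂ 1 fun x => rotX' (F x) := by
  have h := contDiff_pi.1 hF
  exact ⟨contDiff_put hF (h _) (h _) (((h _).mul (h _)).mul (contDiff_adjugate.comp (h _)))
      (contDiff_adjugate.comp (h _)),
    contDiff_put hF (h _) (h _) (contDiff_adjugate.comp (h _))
      (((h _).mul (h _)).mul (contDiff_adjugate.comp (h _)))⟩

theorem contDiff_stp : ∀ (p : Stp s) {F : E → PT 2 s r ℂ}, ContDiff ℂ 1 F →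
    (ContDiff ℂ 1 fun x => p.fwd D (F x)) ∧ ContDiff ℂ 1 fun x => p.bwd D (F x)
  | .word w, _, hF => contDiff_fwdW 1 0 w hF
  | .power _, _, hF => ⟨hF, hF⟩
  | .mixed m n, F, hF => by
    constructor
    · exact (contDiff_rot
        (contDiff_phiX (contDiff_tbX' (contDiff_tbX' hF 1 n).1 0 m).1 0 1).2).1
    · exact (contDiff_tbX'
        (contDiff_tbX' (contDiff_phiX (contDiff_rot hF).2 0 1).1 0 m).2 1 n).2

theorem contDiff_GS (hF : ContDiff ℂ 1 F) {t : E → ℂ} (ht : ContDiff ℂ 1 t) (p : Stp s) :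
    ContDiff ℂ 1 fun x => GS D p (t x) (F x) := by
  refine (contDiff_stp p ?_).2
  have hG := (contDiff_stp (D := D) p hF).1
  refine contDiff_pi.2 fun k => ?_
  rcases k with c | j
  swap
  · exact contDiff_pi.1 hG (Sum.inr j)
  have h := contDiff_pi.1 (contDiff_hd hG)
  show ContDiff ℂ 1 fun x => tau p.slot p.exp (t x) (hd (p.fwd D (F x))) c
  by_cases hc : c = (p.slot, true)
  · subst hc
    simp only [tau, Function.update_self]
    exact (h _).mul (contDiff_exp.comp (ht.smul (contDiff_tl.comp ((h _).pow _))))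
  · simp only [tau, Function.update_of_ne hc]
    exact h c

end smooth

theorem dif_pow {γ : ℂ → Matrix (Fin r) (Fin r) ℂ} {x Y : Matrix (Fin r) (Fin r) ℂ}
    (h : Dif γ x Y) : ∀ n : ℕ, Dif (fun t => γ t ^ n) (x ^ n)
      (∑ l ∈ Finset.range n, x ^ l * Y * adjugate x ^ l)
  | 0 => by simpa using Dif.const (det_one (R := ℂ) (n := Fin r))
  | n + 1 => by
    have := h.mul (dif_pow h n)
    simp only [← pow_succ'] at this
    convert this using 1
    rw [Finset.sum_range_succ', Finset.mul_sum, Finset.sum_mul, add_comm, pow_zero, pow_zero,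
      one_mul, mul_one]
    congr 1
    refine Finset.sum_congr rfl fun l _ => ?_
    rw [pow_succ' x, pow_succ (adjugate x)]
    simp only [mul_assoc]

theorem dif_exp {c X : Matrix (Fin r) (Fin r) ℂ} (hc : c.det = 1) (hX : trace X = 0) :
    Dif (fun t : ℂ => c * NormedSpace.exp (t • X)) c (c * X * adjugate c) := by
  refine ⟨by simp, hc, by rw [(trace_conj hc X).1, hX], ?_⟩
  have h1 := hasDerivAt_exp_smul_const (𝕂 := ℂ) X (0 : ℂ)
  rw [zero_smul, NormedSpace.exp_zero, one_mul] at h1
  refine (h1.const_mul c).congr_deriv ?_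
  rw [mul_assoc, (mul_adj_cancel hc).2, mul_one]

theorem tl_conj (hr : r ≠ 0) {c : Matrix (Fin r) (Fin r) ℂ} (hc : c.det = 1)
    (M : Matrix (Fin r) (Fin r) ℂ) : tl (c * M * adjugate c) = c * tl M * adjugate c := by
  simp only [tl, (trace_conj hc M).1, mul_sub, sub_mul, Matrix.mul_smul, Matrix.smul_mul, mul_one,
    (mul_adj_cancel hc).1]

theorem tl_commute (hr : r ≠ 0) {d : Matrix (Fin r) (Fin r) ℂ} (hd' : d.det = 1) :
    d * tl d * adjugate d = tl d := by
  rw [← tl_conj hr hd', mul_assoc, (mul_adj_cancel hd').1, mul_one]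

/-- The telescoped conjugate sum at the twisted handle. -/
theorem lag_sum {a : Matrix (Fin r) (Fin r) ℂ} (ha : a.det = 1) (X : Matrix (Fin r) (Fin r) ℂ) :
    ∀ m : ℕ, X - a ^ m * X * adjugate a ^ m +
        a ^ m * (∑ l ∈ Finset.range m, adjugate a ^ l * X * a ^ l) * adjugate a ^ m =
      ∑ l ∈ Finset.range m, a ^ l * X * adjugate a ^ l
  | 0 => by simp
  | m + 1 => by
    have ih := lag_sum ha X m
    rw [Finset.sum_range_succ', Finset.sum_range_succ _ m, ← ih]
    simp only [Finset.mul_sum, Finset.sum_mul, mul_add, add_mul]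
    have e : ∀ l, a ^ (m + 1) * (adjugate a ^ (l + 1) * X * a ^ (l + 1)) * adjugate a ^ (m + 1) =
        a ^ m * (adjugate a ^ l * X * a ^ l) * adjugate a ^ m := fun l => by
      rw [pow_succ a m, pow_succ' (adjugate a) l, pow_succ a l, pow_succ' (adjugate a) m]
      simp only [mul_assoc, (cancel_left ha _).1, (cancel_left ha _).2]
    simp only [e, pow_zero, one_mul, mul_one]
    abel

end Vale.Agent.P002.G2
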