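import Vale.Agent.P002.G2.Span
import Vale.Agent.P002.Bd.Classes

/-!
# P002: genus two, every scalar commutant point lies in the closure of the integral points
-/

namespace Vale.Agent.P002.G2

open Matrix Filter Topology Vale.Agent.P002.Sb
open scoped Matrix.Norms.Operator

set_option backward.isDefEq.respectTransparency false

variable {r s : ℕ} {w lam : Fin r → ℂ} {o : Fin r} {β : Matrix (Fin r) (Fin r) ℂ}
  {D : Fin s → Matrix (Fin r) (Fin r) ℂ} {O : Subring ℂ}

/-- The hypotheses on the seed and the lag matrix. -/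
structure Data (w lam : Fin r → ℂ) (o : Fin r) (β : Matrix (Fin r) (Fin r) ℂ)
    (D : Fin s → Matrix (Fin r) (Fin r) ℂ) (O : Subring ℂ) : Prop where
  two_r : 2 ≤ r
  seed : SeedOK (diagonal w) β D
  winj : Function.Injective w
  wne : ∀ x, w x ≠ 0
  indep : Indep lam
  lam1 : ∏ a, lam a = 1
  ne : ∀ x y, hC lam x y ≠ 0
  sys : ∀ ρ Γ, Sys (hC lam) w o β ρ Γ → ρ = 0 ∧ Γ = 0
  memA : diagonal w ∈ MatR O r
  memB : β ∈ MatR O r
  memD : ∀ j, D j ∈ MatR O r

theorem inX_pt2 (h : Data w lam o β D O) {a : Fin 2 → Matrix (Fin r) (Fin r) ℂ}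
    (ha : ∀ i, (a i).det = 1) : InX D O (pt (1 : Fin 2) (diagonal w) β a) := by
  intro f hf
  let T : XVar 2 s r → MvPolynomial (Var 2 r) ℂ := fun v => match v.1 with
    | Sum.inl (k, c) =>
        if k = 1 then MvPolynomial.C ((bif c then β else diagonal w) v.2.1 v.2.2)
        else bif c then MvPolynomial.C ((1 : Matrix (Fin r) (Fin r) ℂ) v.2.1 v.2.2)
          else MvPolynomial.X ((k, false), v.2.1, v.2.2)
    | Sum.inr _ => MvPolynomial.C ((1 : Matrix (Fin r) (Fin r) ℂ) v.2.1 v.2.2)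
  have hT : ∀ (σ : Tup 2 r ℂ) k p q, MvPolynomial.eval (coord σ) (T (k, p, q)) =
      pt (s := s) (1 : Fin 2) (diagonal w) β (fun i => σ (i, false)) k p q := by
    intro σ k p q
    rcases k with ⟨k, c⟩ | j
    · by_cases hk : k = 1
      · cases c <;> simp [T, pt, hk]
      · cases c <;> simp [T, pt, hk, coord]
    · simp [T, pt]
  have hV : VanL (MvPolynomial.bind₁ T f) := by
    intro C
    rw [eval_bind (fun k p q => hT _ k p q)]
    refine hf _ ⟨isX_pt h.seed (fun i => ?_) rfl, fun k => ?_⟩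
    · show ((Int.castRingHom ℂ).mapMatrix (C i : Matrix (Fin r) (Fin r) ℤ)).det = 1
      rw [← RingHom.map_det, (C i).2, map_one]
    · rcases k with ⟨k, c⟩ | j
      · by_cases hk : k = 1
        · cases c
          · simpa [pt, hk] using h.memA
          · simpa [pt, hk] using h.memB
        · cases c
          · simp only [pt, Sum.elim_inl, hk, if_false, cond_false, mem_MatR, castT]
            intro p q
            simp
          · simpa [pt, hk] using one_mem (MatR O r)
      · simpa [pt] using one_mem (MatR O r)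
  have := inL_all h.two_r (fun i => ⟨a i, ha i⟩) _ hV
  rw [eval_bind (fun k p q => hT _ k p q)] at this
  simpa [lagC, lag] using this

section family

variable {n : ℕ} {a0 : Fin 2 → Matrix (Fin r) (Fin r) ℂ} {γ : Fin n → ℂ → Matrix (Fin r) (Fin r) ℂ}

/-- A step is usable when some starting parameter gives its handle a generic spectrum. -/
def Reach (α β : Matrix (Fin r) (Fin r) ℂ) (D : Fin s → Matrix (Fin r) (Fin r) ℂ)
    (a0 : Fin 2 → Matrix (Fin r) (Fin r) ℂ) (γ : Fin n → ℂ → Matrix (Fin r) (Fin r) ℂ)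
    (p : Stp s) : Prop :=
  ∃ (q : Start 2 r n) (l : Fin r → ℂ) (S S' : Matrix (Fin r) (Fin r) ℂ), Indep l ∧
    Spec (p.fwd D (pt 1 α β (aStart a0 γ q)) (Sum.inl (p.slot, false))) l S S'

theorem inX_step (h : Data w lam o β D O) (_ha0 : ∀ i, (a0 i).det = 1) {m : ℕ}
    {F : Start 2 r n × (Fin m → ℂ) → PT 2 s r ℂ}
    (hF : IsFamX D O 1 (diagonal w) β a0 γ F) {p : Stp s}
    (hreach : Reach (diagonal w) β D a0 γ p)
    (z : (Start 2 r n × (Fin m → ℂ)) × ℂ) : InX D O (GS D p z.2 (F z.1)) := by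
  intro f hf
  obtain ⟨q, l, S, S', hl, hspec⟩ := hreach
  obtain ⟨hfwd, hbwd⟩ := Stp.pull (O := O) h.seed.detD h.memD p
  obtain ⟨f', hf', he⟩ := hbwd f hf
  let u := fun x : (Start 2 r n × (Fin m → ℂ)) × ℂ =>
    MvPolynomial.eval (xcoord (GS D p x.2 (F x.1))) f
  have hu : ContDiff ℂ 1 u :=
    contDiff_evalX f (contDiff_GS (hF.smooth.comp contDiff_fst) contDiff_snd p)
  let p1 : (Start 2 r n × (Fin m → ℂ)) × ℂ := ((q, 0), 0)
  have hloc : ∀ᶠ x in 𝓝 p1, u x = 0 := by
    have hc : Tendsto (fun x : (Start 2 r n × (Fin m → ℂ)) × ℂ => p.fwd D (F x.1)) (𝓝 p1)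
        (𝓝 (p.fwd D (pt 1 (diagonal w) β (aStart a0 γ q)))) := by
      rw [← hF.start]
      exact ((contDiff_stp (D := D) p (hF.smooth.comp contDiff_fst)).1).continuous.tendsto p1
    filter_upwards [hc.eventually (flow_lemmaK hspec hl hf')] with x hx
    show MvPolynomial.eval (xcoord (GS D p x.2 (F x.1))) f = 0
    rw [GS, ← he]
    exact hx (hfwd.inX (hF.inX _)) p.exp x.2
  let v := fun t : ℂ => u (p1 + t • (z - p1))
  have hline : ContDiff ℂ 1 fun t : ℂ => p1 + t • (z - p1) :=
    contDiff_const.add (contDiff_id.smul contDiff_const)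
  have hv : AnalyticOnNhd ℂ v Set.univ := fun t _ =>
    ((hu.comp hline).differentiable one_ne_zero).analyticAt t
  have hv0 : v =ᶠ[𝓝 0] 0 := by
    have ht : Tendsto (fun t : ℂ => p1 + t • (z - p1)) (𝓝 0) (𝓝 p1) := by
      have := hline.continuous.tendsto 0
      rw [zero_smul, add_zero] at this
      exact this
    exact ht.eventually hloc
  have := hv.eqOn_zero_of_preconnected_of_eventuallyEq_zero isPreconnected_univ (Set.mem_univ 0)
    hv0 (Set.mem_univ 1)
  simpa [v, u] using this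

/-- The tangent vector of a step. -/
noncomputable def vstep (α β : Matrix (Fin r) (Fin r) ℂ) (D : Fin s → Matrix (Fin r) (Fin r) ℂ)
    (a0 : Fin 2 → Matrix (Fin r) (Fin r) ℂ) (p : Stp s) : PT 2 s r ℂ :=
  deriv (fun z => GS D p z (pt 1 α β a0)) 0

theorem exists_fam (h : Data w lam o β D O) (ha0 : ∀ i, (a0 i).det = 1) (hγ : Paths γ)
    (S : List (Stp s)) (hS : ∀ p ∈ S, Reach (diagonal w) β D a0 γ p) :
    ∃ m, ∃ F : Start 2 r n × (Fin m → ℂ) → PT 2 s r ℂ,
      IsFamX D O 1 (diagonal w) β a0 γ F ∧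
      ∀ p ∈ S, ∃ d, fderiv ℂ F 0 d = vstep (diagonal w) β D a0 p := by
  induction S with
  | nil =>
    exact ⟨0, fun p => pt 1 (diagonal w) β (aStart a0 γ p.1),
      ⟨(contDiff_aStart hγ).comp contDiff_fst, fun p => inX_pt2 h (det_aStart ha0 hγ p.1),
        fun _ => rfl, fun p => det_pt h.seed (det_aStart ha0 hγ p.1)⟩, by simp⟩
  | cons t S ih =>
    obtain ⟨m, F, hF, hd⟩ := ih fun u hu => hS u (by simp [hu])
    have hr := hS t (by simp)
    let X := Start 2 r n
    let ini : (Fin (m + 1) → ℂ) →L[ℂ] (Fin m → ℂ) :=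
      ContinuousLinearMap.pi fun a => ContinuousLinearMap.proj a.castSucc
    let F' : X × (Fin (m + 1) → ℂ) → PT 2 s r ℂ :=
      fun p => GS D t (p.2 (Fin.last m)) (F (p.1, ini p.2))
    have hsm : ContDiff ℂ 1 F' :=
      contDiff_GS (hF.smooth.comp (contDiff_fst.prodMk (ini.contDiff.comp contDiff_snd)))
        ((contDiff_apply ℂ ℂ (Fin.last m)).comp contDiff_snd) t
    have hzero : ∀ (q : X) (z : Fin (m + 1) → ℂ), z (Fin.last m) = 0 → F' (q, z) = F (q, ini z) :=
      fun q z hz => by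
        simp only [F', hz]
        exact GS_zero h.seed.detD t (hF.dets _)
    have hin : ∀ p, InX D O (F' p) := fun p =>
      inX_step h ha0 hF hr ((p.1, ini p.2), p.2 (Fin.last m))
    refine ⟨m + 1, F', ⟨hsm, hin, fun q => ?_, fun p k => inX_det (hin p) k⟩, ?_⟩
    · rw [hzero q 0 rfl, map_zero, hF.start]
    · have hdiff : DifferentiableAt ℂ F' 0 := hsm.differentiable one_ne_zero 0
      intro u hu
      rw [List.mem_cons] at hu
      rcases hu with rfl | hu
      · let e : ℂ →L[ℂ] X × (Fin (m + 1) → ℂ) :=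
          (ContinuousLinearMap.inr ℂ X _).comp
            (ContinuousLinearMap.pi fun a => if a = Fin.last m then ContinuousLinearMap.id ℂ ℂ else 0)
        refine ⟨e 1, ?_⟩
        have he : (fun z => GS D u z (pt 1 (diagonal w) β a0)) = fun z => F' (e z) := by
          funext z
          have h1 : ini (e z).2 = 0 := by
            funext a
            simp [ini, e, Fin.castSucc_ne_last]
          have h2 : (e z).2 (Fin.last m) = z := by simp [e]
          have h3 : (e z).1 = 0 := by simp [e]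
          simp only [F', h1, h2, h3, hF.start, aStart_zero hγ]
        simp only [vstep, he]
        have := hdiff.hasFDerivAt.comp_hasDerivAt_of_eq (0 : ℂ) e.hasDerivAt (map_zero e).symm
        exact this.deriv.symm
      · obtain ⟨d, hd'⟩ := hd u hu
        let emb : (Fin m → ℂ) →L[ℂ] (Fin (m + 1) → ℂ) := ContinuousLinearMap.pi
          fun a => Fin.lastCases 0 (fun b => ContinuousLinearMap.proj b) a
        let ι := (ContinuousLinearMap.id ℂ X).prodMap emb
        refine ⟨ι d, ?_⟩
        have he : F = fun p => F' (ι p) := by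
          funext ⟨q, z⟩
          have h1 : ini (emb z) = z := by funext a; simp [ini, emb]
          show F (q, z) = F' (q, emb z)
          rw [hzero q _ (by simp [emb]), h1]
        have hc : HasFDerivAt (fun p => F' (ι p)) ((fderiv ℂ F' 0).comp ι) 0 :=
          (show HasFDerivAt F' (fderiv ℂ F' 0) (ι 0) by
            rw [map_zero]; exact hdiff.hasFDerivAt).comp 0 ι.hasFDerivAt
        rw [← hd', ← (he ▸ hc : HasFDerivAt F _ 0).fderiv.symm]
        rfl

end family

/-- An `m`-th root making the mixed curve generic. -/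
theorem exists_mixed_target (hr : 2 ≤ r) {d : Matrix (Fin r) (Fin r) ℂ} (hd : d.det = 1) {m : ℕ}
    (hm : 1 ≤ m) : ∃ (a S S' : Matrix (Fin r) (Fin r) ℂ) (l : Fin r → ℂ),
      a.det = 1 ∧ Indep l ∧ Spec (d * a ^ m) l S S' := by
  classical
  obtain ⟨t, ε, P, P', hP, hP', -, hT, -⟩ := Bd.exists_bidiag d
  set T := Bd.bidiag t ε
  have ht : ∏ a, t a = 1 := by
    rw [← Bd.det_bidiag t ε, show Bd.bidiag t ε = P' * d * P from hT.symm, det_mul, det_mul, hd, mul_one, ← det_mul, hP', det_one]
  have ht0 : ∀ a, t a ≠ 0 := fun a => Finset.prod_ne_zero_iff.1 (ht ▸ one_ne_zero) a (Finset.mem_univ a)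
  obtain ⟨l, hl, hl1, hl0⟩ := exists_indep hr
  choose v hv using fun a => IsAlgClosed.exists_pow_nat_eq (l a / t a) (show 0 < m by omega)
  have hv0 : ∀ a, v a ≠ 0 := fun a e => by
    have := hv a
    rw [e, zero_pow (by omega)] at this
    exact div_ne_zero (hl0 a) (ht0 a) this.symm
  set ζ := ∏ a, v a with hζ
  have hζ0 : ζ ≠ 0 := Finset.prod_ne_zero_iff.2 fun a _ => hv0 a
  have hζm : ζ ^ m = 1 := by
    rw [hζ, ← Finset.prod_pow]
    simp only [hv, Finset.prod_div_distrib, hl1, ht, div_one]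
  let o : Fin r := ⟨0, by omega⟩
  set v' := Function.update v o (v o * ζ⁻¹) with hv'
  have hv'm : ∀ a, v' a ^ m = l a / t a := fun a => by
    by_cases ha : a = o
    · subst ha
      simp [v', mul_pow, inv_pow, hζm, hv]
    · simp [v', ha, hv]
  have hv'1 : ∏ a, v' a = 1 := by
    rw [hv', Finset.prod_update_of_mem (Finset.mem_univ o), mul_right_comm,
      ← Finset.prod_eq_mul_prod_sdiff_singleton_of_mem (Finset.mem_univ o) v, ← hζ,
      mul_inv_cancel₀ hζ0]
  have hTri : Bd.Tri (⊤ : Subring ℂ) 1 l (T * diagonal fun a => v' a ^ m) := by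
    refine ⟨fun a b hab => ?_, fun a => ?_, fun a b _ => ⟨_, trivial, (one_mul _).symm⟩⟩
    · have : b.1 < a.1 := hab
      simp only [T, mul_diagonal, Bd.bidiag, of_apply, if_neg hab.ne',
        if_neg (show ¬ b.1 = a.1 + 1 by omega), zero_mul]
    · simp only [T, mul_diagonal, Bd.bidiag, of_apply, if_true, hv'm]
      rw [mul_div_cancel₀ _ (ht0 a)]
  obtain ⟨α₁, hα₁, -, -, -, hα₁e⟩ :=
    Bd.exists_unitri hl.injective (fun _ _ _ => Subring.mem_top _) hTri
  obtain ⟨a1, a2⟩ := mul_adj_cancel hα₁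
  refine ⟨P * diagonal v' * P', P * α₁, adjugate α₁ * P', l, ?_, hl, ?_, ?_⟩
  · rw [det_mul, det_mul, det_diagonal, hv'1, mul_one, ← det_mul, hP, det_one]
  · rw [mul_assoc, ← mul_assoc α₁, a1, one_mul, hP]
  · have hd' : d = P * T * P' := by
      rw [← hT]; simp only [mul_assoc, hP, mul_one, ← mul_assoc P P', one_mul]
    have e : T * diagonal (fun a => v' a ^ m) = α₁ * diagonal l * adjugate α₁ := by
      rw [← hα₁e, mul_assoc _ α₁, a1, mul_one]
    rw [conj_pow hP, diagonal_pow, hd',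
      show P * T * P' * (P * diagonal (v' ^ m) * P') =
        P * (T * diagonal fun a => v' a ^ m) * P' by
          simp only [mul_assoc, ← mul_assoc P' P, hP', one_mul]
          rfl, e]
    simp only [mul_assoc]

/-- Every step can be made generic. -/
theorem exists_target (hr : 2 ≤ r) {α : Matrix (Fin r) (Fin r) ℂ} (h : SeedOK α β D) (p : Stp s)
    (hp : p.Ok) :
    ∃ a : Matrix (Fin r) (Fin r) ℂ, a.det = 1 ∧ ∀ a' : Fin 2 → Matrix (Fin r) (Fin r) ℂ,
      (∀ i, (a' i).det = 1) → a' 0 = a → ∃ (l : Fin r → ℂ) (S S' : Matrix (Fin r) (Fin r) ℂ),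
        Indep l ∧ Spec (p.fwd D (pt 1 α β a') (Sum.inl (p.slot, false))) l S S' := by
  obtain ⟨l, hl, hl1, hl0⟩ := exists_indep hr
  have hld : (diagonal l).det = 1 := by rw [det_diagonal, hl1]
  rcases p with u | k | ⟨m, n⟩
  · refine ⟨diagonal l * adjugate (wVal α β D u), ?_, fun a' ha' e => ⟨l, 1, 1, hl, one_mul 1, ?_⟩⟩
    · simp [det_adjugate, hld, det_wVal h]
    · show fwdW 1 D 0 u (pt 1 α β a') (Sum.inl (0, false)) = _
      rw [fwdW_pt h rfl lt01 u ha']
      simp [pt, e, mul_assoc, (mul_adj_cancel (det_wVal h u)).2]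
  · refine ⟨diagonal l, hld, fun a' _ e => ⟨l, 1, 1, hl, one_mul 1, ?_⟩⟩
    simp [Stp.fwd, Stp.slot, pt, e]
  · have hd : (β * α ^ n).det = 1 := by rw [det_mul, det_pow, h.detA, h.detB, one_pow, one_mul]
    obtain ⟨a, S, S', l', ha, hl', hS, hspec⟩ := exists_mixed_target hr hd hp
    refine ⟨a, ha, fun a' _ e => ⟨l', adjugate (a ^ m) * α * a ^ m * S,
      S' * adjugate (adjugate (a ^ m) * α * a ^ m), hl', ?_, ?_⟩⟩
    · have hc : (adjugate (a ^ m) * α * a ^ m).det = 1 := by simp [det_adjugate, ha, h.detA]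
      rw [mul_assoc _ S, ← mul_assoc S, hS, one_mul, (mul_adj_cancel hc).1]
    · show rotX (phiX 0 1 (tbX 0 m (tbX 1 n (pt 1 α β a')))) (Sum.inl (1, false)) = _
      rw [tbX_slots, phi_slots, rotX]
      simp only [put_a, put_b, put_c, put_d]
      have e0 : pt (s := s) (1 : Fin 2) α β a' (Sum.inl (0, false)) = a := by simp [pt, e]
      have e1 : pt (s := s) (1 : Fin 2) α β a' (Sum.inl (0, true)) = 1 := by simp [pt]
      have e2 : pt (s := s) (1 : Fin 2) α β a' (Sum.inl (1, false)) = α := by simp [pt]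
      have e3 : pt (s := s) (1 : Fin 2) α β a' (Sum.inl (1, true)) = β := by simp [pt]
      rw [e0, e1, e2, e3, one_mul, hspec]
      simp only [mul_assoc]

variable {a0 : Fin 2 → Matrix (Fin r) (Fin r) ℂ}

/-- Near the slice point the variety is inside the closure of the integral points. -/
theorem local_slice2 (h : Data w lam o β D O) (ha0 : ∀ i, (a0 i).det = 1) (hA : a0 0 = hC lam) :
    ∀ᶠ x in 𝓝 (pt (1 : Fin 2) (diagonal w) β a0), IsX D x → InX D O x := by
  classical
  have hr : r ≠ 0 := by have := h.two_r; omega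
  have hs := h.seed
  set α := diagonal w with hα
  obtain ⟨Ts, hTs, hspan⟩ :=
    exists_finset_span_eq (vel α β D (a0 0) '' {p : Stp s | p.Ok})
  choose pp hpok hVY using fun (v : Ts) => hTs v.2
  let steps : Fin Ts.card → Stp s := fun k => pp (Ts.equivFin.symm k)
  choose tgt htd htgt using fun k : Fin Ts.card =>
    exists_target (D := D) h.two_r hs (steps k) (hpok _)
  have htarget : ∀ k : Fin Ts.card, (adjugate (a0 0) * tgt k).det = 1 := fun k => by
    simp [det_adjugate, ha0, htd]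
  choose γ hγ hγ0 hγ1 hγd using fun k => exists_sl_path h.two_r det_one (htarget k)
  have hP : Paths γ := ⟨hγ, hγd, hγ0⟩
  have hreach : ∀ t ∈ List.ofFn steps, Reach α β D a0 γ t := by
    intro t ht
    obtain ⟨k, rfl⟩ := List.mem_ofFn.1 ht
    refine ⟨(0, Pi.single k 1), htgt k _ (det_aStart ha0 hP _) ?_⟩
    rw [aStart]
    dsimp only
    rw [list_prod_single _ k (fun m hm => by simp [Pi.single_eq_of_ne hm, hγ0]),
      Pi.single_eq_same, hγ1, show tl ((0 : Fin 2 → Matrix (Fin r) (Fin r) ℂ) 0) = 0 by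
        simp [tl], NormedSpace.exp_zero, mul_one, ← mul_assoc,
      (mul_adj_cancel (ha0 _)).1, one_mul]
  obtain ⟨m, F, hF, hsteps⟩ := exists_fam h ha0 hP (List.ofFn steps) hreach
  have hbase : F 0 = pt 1 α β a0 := by
    show F (0, 0) = _
    rw [hF.start, aStart_zero hP]
  suffices hev : ∀ᶠ x in 𝓝 (F 0), RequX D x = (fun _ => 1, 1) → InX D O x by
    rw [hbase] at hev
    exact hev.mono fun x hx hxX => hx (requX_eq hxX)
  refine eventually_of_param hF.smooth (contDiff_RequX D)
    (fun p => requX_eq (inX_isX (hF.inX p))) hF.inX fun v hv => ?_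
  rw [hbase] at hv
  let Mm : PT 2 s r ℂ →ₗ[ℂ] PT 2 s r ℂ :=
    LinearMap.pi fun k => (LinearMap.mulRight ℂ (pt 1 α β a0 k)).comp (LinearMap.proj k)
  have hMm : ∀ Y k, Mm Y k = Y k * pt 1 α β a0 k := fun Y k => rfl
  let Y : PT 2 s r ℂ := fun k => v k * adjugate (pt 1 α β a0 k)
  have hdet := det_pt (L := (1 : Fin 2)) (A := α) (B := β) hs ha0
  have hYv : Mm Y = v := funext fun k => by
    rw [hMm, mul_assoc, (mul_adj_cancel (hdet k)).2, mul_one]
  have hline : HasDerivAt (fun t : ℂ => pt 1 α β a0 + t • v) v 0 := hasDerivAt_line _ _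
  have h0 : pt (1 : Fin 2) α β a0 = (fun t : ℂ => pt 1 α β a0 + t • v) 0 := by
    show _ = pt 1 α β a0 + (0 : ℂ) • v
    rw [zero_smul, add_zero]
  have hR := ((contDiff_RequX D).differentiable one_ne_zero
    (pt (1 : Fin 2) α β a0)).hasFDerivAt.comp_hasDerivAt_of_eq (0 : ℂ) hline h0
  replace hR := hR.congr_deriv hv
  have hcomp : ∀ k, HasDerivAt (fun t : ℂ => pt 1 α β a0 k + t • v k) (v k) 0 :=
    fun k => hasDerivAt_pi.1 hline k
  have htr : ∀ k, trace (adjugate (pt 1 α β a0 k) * v k) = 0 := fun k =>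
    (hasDerivAt_det (by simp) (hdet k) (hcomp k)).unique (hasDerivAt_pi.1 hR.fst k)
  have hYtr : ∀ k, trace (Y k) = 0 := fun k => by
    show trace (v k * adjugate _) = 0
    rw [trace_mul_comm]; exact htr k
  have hDif : DifX (fun t : ℂ => pt 1 α β a0 + t • v) (pt 1 α β a0) Y := fun k =>
    ⟨by simp, hdet k, hYtr k, (hcomp k).congr_deriv (by
      show v k = v k * adjugate _ * _
      rw [mul_assoc, (mul_adj_cancel (hdet k)).2, mul_one])⟩
  have hrel : relV 1 α β D a0 Y = 0 := by
    have h1 := (dif_relX hs rfl ha0 hDif).der.unique hR.snd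
    rwa [mul_one] at h1
  have hmem := span_tangent hr hs h.winj h.wne ha0 (by rw [hA]; exact h.ne)
    (by rw [hA]; exact h.sys) hYtr hrel
  -- the starting family realises the free variations
  let DF : Submodule ℂ (PT 2 s r ℂ) := LinearMap.range (fderiv ℂ F 0).toLinearMap
  have hfree : ∀ Z, trace Z = 0 → Mm (Pi.single (Sum.inl (0, false)) Z) ∈ DF := by
    intro Z hZ
    let P0 : Start 2 r Ts.card := (Pi.single 0 (adjugate (a0 0) * (Z * a0 0)), 0)
    refine ⟨(P0, 0), ?_⟩
    have hcurve : HasDerivAt (fun t : ℂ => F (t • P0, 0)) (fderiv ℂ F 0 (P0, 0)) 0 := by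
      have hl' : HasDerivAt (fun t : ℂ => ((t • P0, 0) : Start 2 r Ts.card × (Fin m → ℂ)))
          (P0, 0) 0 :=
        (((hasDerivAt_id (0 : ℂ)).smul_const P0).prodMk (hasDerivAt_const (0 : ℂ)
          (0 : Fin m → ℂ))).congr_deriv (by rw [one_smul])
      exact (hF.smooth.differentiable one_ne_zero 0).hasFDerivAt.comp_hasDerivAt_of_eq (0 : ℂ) hl'
        (by rw [zero_smul]; rfl)
    refine hcurve.unique ?_
    simp only [hF.start]
    refine hasDerivAt_pi.2 fun k => ?_
    rcases k with ⟨k, c⟩ | j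
    · fin_cases k
      · cases c
        · simp only [hMm, pt, Sum.elim_inl, Fin.zero_eta, if_neg ne01, cond_false,
            Pi.single_eq_same]
          have h9 : trace (adjugate (a0 0) * (Z * a0 0)) = 0 := by
            rw [← mul_assoc, (trace_conj (ha0 0) _).2, hZ]
          have he : ∀ t : ℂ, aStart a0 γ (t • P0) 0 =
              a0 0 * NormedSpace.exp (t • (adjugate (a0 0) * (Z * a0 0))) := fun t => by
            rw [aStart, show tl ((t • P0).1 0) = t • (adjugate (a0 0) * (Z * a0 0)) by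
              simp [P0, tl, trace_smul, h9], list_prod_ones _ (fun m => by simp [P0, hγ0]), mul_one]
          simp only [he]
          have h1 := hasDerivAt_exp_smul_const (𝕂 := ℂ) (adjugate (a0 0) * (Z * a0 0)) (0 : ℂ)
          rw [zero_smul, NormedSpace.exp_zero, one_mul] at h1
          exact (h1.const_mul (a0 0)).congr_deriv (cancel_left (ha0 0) _).2
        · simpa [hMm, pt, ne01] using hasDerivAt_const (0 : ℂ) (1 : Matrix (Fin r) (Fin r) ℂ)
      · cases c <;> simpa [hMm, pt, ne01.symm] using hasDerivAt_const (0 : ℂ) _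
    · simpa [hMm, pt] using hasDerivAt_const (0 : ℂ) (1 : Matrix (Fin r) (Fin r) ℂ)
  have hS : Submodule.span ℂ (vel α β D (a0 0) '' {p : Stp s | p.Ok}) ≤
      Submodule.comap Mm DF := by
    rw [← hspan, Submodule.span_le]
    intro V hV
    set k := Ts.equivFin ⟨V, hV⟩
    obtain ⟨d, hd⟩ := hsteps (steps k) (List.mem_ofFn.2 ⟨k, rfl⟩)
    have hst : steps k = pp ⟨V, hV⟩ := by simp [steps, k]
    obtain ⟨Yt, hY1, hY3⟩ := gs_vel hr hs ha0 (pp ⟨V, hV⟩)
    have hVeq : vel α β D (a0 0) (pp ⟨V, hV⟩) = V := hVY ⟨V, hV⟩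
    have hvs : vstep α β D a0 (pp ⟨V, hV⟩) = Mm Yt := by
      have hder : HasDerivAt (fun z => GS D (pp ⟨V, hV⟩) z (pt 1 α β a0)) (Mm Yt) 0 :=
        hasDerivAt_pi.2 fun k => (hY1 k).der
      exact hder.deriv
    have hZ : trace (Yt (Sum.inl (0, false)) - V (Sum.inl (0, false))) = 0 := by
      rw [trace_sub, (hY1 _).tr, ← hVeq]
      rcases pp ⟨V, hV⟩ with u | j | ⟨mm, nn⟩ <;> simp [vel, blkW_free _ _ ne01, blkL]
    obtain ⟨d', hd'⟩ := hfree _ hZ
    replace hd' : fderiv ℂ F 0 d' = _ := hd'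
    refine ⟨d - d', ?_⟩
    show fderiv ℂ F 0 (d - d') = Mm V
    rw [map_sub, hd, hd', hst, hvs, ← map_sub]
    congr 1
    funext x
    by_cases hx : x = Sum.inl (0, false)
    · subst hx; simp
    · rw [Pi.sub_apply, Pi.single_eq_of_ne hx, sub_zero, hY3 x hx, hVeq]
  have hle : Y ∈ Submodule.comap Mm DF := by
    refine (?_ : Submodule.span ℂ _ ≤ Submodule.comap Mm DF) hmem
    rw [Submodule.span_le, Set.union_subset_iff]
    exact ⟨by rintro V ⟨Z, hZ, rfl⟩; exact hfree Z hZ,
      fun V hV => hS (Submodule.subset_span hV)⟩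
  obtain ⟨d, hd⟩ := hle
  exact ⟨d, hd.trans hYv⟩

/-- Swap the two handles. -/
def swX (x : PT 2 s r ℂ) : PT 2 s r ℂ :=
  put x
    (cm adjugate (x (Sum.inl (0, false))) (x (Sum.inl (0, true))) * x (Sum.inl (1, false)) *
      adjugate (cm adjugate (x (Sum.inl (0, false))) (x (Sum.inl (0, true)))))
    (cm adjugate (x (Sum.inl (0, false))) (x (Sum.inl (0, true))) * x (Sum.inl (1, true)) *
      adjugate (cm adjugate (x (Sum.inl (0, false))) (x (Sum.inl (0, true)))))
    (x (Sum.inl (0, false))) (x (Sum.inl (0, true)))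

/-- The inverse swap. -/
def swX' (x : PT 2 s r ℂ) : PT 2 s r ℂ :=
  put x (x (Sum.inl (1, false))) (x (Sum.inl (1, true)))
    (adjugate (cm adjugate (x (Sum.inl (1, false))) (x (Sum.inl (1, true)))) * x (Sum.inl (0, false)) *
      cm adjugate (x (Sum.inl (1, false))) (x (Sum.inl (1, true))))
    (adjugate (cm adjugate (x (Sum.inl (1, false))) (x (Sum.inl (1, true)))) * x (Sum.inl (0, true)) *
      cm adjugate (x (Sum.inl (1, false))) (x (Sum.inl (1, true))))

theorem cm_conj {u : Matrix (Fin r) (Fin r) ℂ} (hu : u.det = 1) (a b : Matrix (Fin r) (Fin r) ℂ) :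
    cm adjugate (u * a * adjugate u) (u * b * adjugate u) = u * cm adjugate a b * adjugate u := by
  simp only [cm, adjugate_mul_distrib, adjugate_adjugate_of_det hu, mul_assoc,
    (cancel_left hu _).1]

theorem isX_swX {x : PT 2 s r ℂ} (hx : IsX D x) : IsX D (swX x) ∧ IsX D (swX' x) := by
  set a := x (Sum.inl (0, false))
  set b := x (Sum.inl (0, true))
  set c := x (Sum.inl (1, false))
  set d := x (Sum.inl (1, true))
  have hab : (cm adjugate a b).det = 1 := det_cm (hx.1 _) (hx.1 _)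
  have hcd : (cm adjugate c d).det = 1 := det_cm (hx.1 _) (hx.1 _)
  refine ⟨isX_put hx ⟨?_, ?_, hx.1 _, hx.1 _⟩ ?_, isX_put hx ⟨hx.1 _, hx.1 _, ?_, ?_⟩ ?_⟩
  · simp [det_adjugate, hab, a, b, c, hx.1]
  · simp [det_adjugate, hab, a, b, d, hx.1]
  · rw [cm_conj hab, mul_assoc (cm adjugate a b * _), (mul_adj_cancel hab).2, mul_one]
  · simp [det_adjugate, hcd, a, c, d, hx.1]
  · simp [det_adjugate, hcd, b, c, d, hx.1]
  · have := cm_conj (u := adjugate (cm adjugate c d)) (by simp [det_adjugate, hcd]) a b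
    rw [adjugate_adjugate_of_det hcd] at this
    rw [this, ← mul_assoc, ← mul_assoc, (mul_adj_cancel hcd).1, one_mul]

theorem pullX_swX : PullX D O (swX (s := s) (r := r)) := by
  refine pullX_put _ _ _ _ ?_ ?_ (polyMat_proj _) (polyMat_proj _) (fun x hx => (isX_swX hx).1)
    fun x h => ?_
  · exact (((((polyMat_proj _).mul (polyMat_proj _)).mul (polyMat_proj _).adj).mul
      (polyMat_proj _).adj).mul (polyMat_proj _)).mul
        ((((polyMat_proj _).mul (polyMat_proj _)).mul (polyMat_proj _).adj).mul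
          (polyMat_proj _).adj).adj
  · exact (((((polyMat_proj _).mul (polyMat_proj _)).mul (polyMat_proj _).adj).mul
      (polyMat_proj _).adj).mul (polyMat_proj _)).mul
        ((((polyMat_proj _).mul (polyMat_proj _)).mul (polyMat_proj _).adj).mul
          (polyMat_proj _).adj).adj
  · have hm : cm adjugate (x (Sum.inl (0, false))) (x (Sum.inl (0, true))) ∈ MatR O r :=
      mul_mem (mul_mem (mul_mem (h _) (h _)) (adjugate_mem_MatR (h _))) (adjugate_mem_MatR (h _))
    exact ⟨mul_mem (mul_mem hm (h _)) (adjugate_mem_MatR hm),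
      mul_mem (mul_mem hm (h _)) (adjugate_mem_MatR hm), h _, h _⟩

theorem swX_swX' {x : PT 2 s r ℂ} (hx : ∀ k, (x k).det = 1) : swX (swX' x) = x := by
  have hu : (cm adjugate (x (Sum.inl (1, false))) (x (Sum.inl (1, true)))).det = 1 :=
    det_cm (hx _) (hx _)
  refine ext_slots ?_ ?_ ?_ ?_ ?_
  case refine_5 => intro j; simp [swX, swX']
  all_goals simp [swX, swX', mul_assoc, (cancel_left hu _).2, (mul_adj_cancel hu).1]

theorem contDiff_swX' : ContDiff ℂ 1 (swX' (s := s) (r := r)) := by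
  have h := contDiff_pi.1 (contDiff_id : ContDiff ℂ 1 (id : PT 2 s r ℂ → PT 2 s r ℂ))
  have hu : ContDiff ℂ 1 fun x : PT 2 s r ℂ =>
      cm adjugate (x (Sum.inl (1, false))) (x (Sum.inl (1, true))) :=
    (((h _).mul (h _)).mul (contDiff_adjugate.comp (h _))).mul (contDiff_adjugate.comp (h _))
  exact contDiff_put contDiff_id (h _) (h _)
    (((contDiff_adjugate.comp hu).mul (h _)).mul hu)
    (((contDiff_adjugate.comp hu).mul (h _)).mul hu)

/-- Every point with scalar commutant is in the closure of the integral points. -/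
theorem inX_all2 (h : Data w lam o β D O) {x : PT 2 s r ℂ} (hx : IsX D x) (hS : IsSchurX D x) :
    InX D O x := by
  set α := diagonal w with hα
  set A := hC lam with hAdef
  have hlam0 : ∀ a, lam a ≠ 0 := fun a =>
    Finset.prod_ne_zero_iff.1 (h.lam1 ▸ one_ne_zero) a (Finset.mem_univ a)
  have hAd : A.det = 1 := by
    rw [hAdef, (spec_hC lam).2, det_mul, det_mul, det_diagonal, h.lam1, mul_one, ← det_mul,
      (spec_hC lam).1, det_one]
  let a0 : Fin 2 → Matrix (Fin r) (Fin r) ℂ := fun _ => A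
  set p := pt (s := s) (1 : Fin 2) α β a0 with hp
  have hdp : ∀ k, (p k).det = 1 := det_pt h.seed fun _ => hAd
  set x₁ := swX p with hx₁
  have hu : cm adjugate A (1 : Matrix (Fin r) (Fin r) ℂ) = 1 := by
    simp [cm, (mul_adj_cancel hAd).1]
  have v1 : x₁ (Sum.inl (0, false)) = α := by simp [hx₁, swX, hp, pt, a0, hu]
  have v2 : x₁ (Sum.inl (1, false)) = A := by simp [hx₁, swX, hp, pt, a0]
  have hX1 : IsX D x₁ := (isX_swX (isX_pt h.seed (fun _ => hAd) rfl)).1
  have hS1 : IsSchurX D x₁ := by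
    intro c hc _
    have k1 := hc (0, false)
    have k2 := hc (1, false)
    rw [v1] at k1
    rw [v2] at k2
    have hdiag : ∀ a b, a ≠ b → c a b = 0 := fun a b hab => by
      have := congrFun (congrFun k1 a) b
      rw [hα, mul_diagonal, diagonal_mul] at this
      exact (mul_eq_zero.1 (show c a b * (w b - w a) = 0 by linear_combination this)).resolve_right
        (sub_ne_zero.2 fun e => hab (h.winj e).symm)
    have he : c = diagonal fun a => c a a := by
      ext a b
      by_cases hab : a = b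
      · subst hab; simp
      · rw [diagonal_apply_ne _ hab, hdiag a b hab]
    let q : Fin r := ⟨0, by have := h.two_r; omega⟩
    refine ⟨c q q, ?_⟩
    rw [he, smul_one_eq_diagonal]
    refine congrArg diagonal (funext fun a => ?_)
    have := congrFun (congrFun k2 a) q
    rw [he, mul_diagonal, diagonal_mul] at this
    simp only [diagonal_apply_eq]
    exact mul_right_cancel₀ (h.ne a q) (this.trans (mul_comm _ _))
  have hloc : ∀ᶠ y in 𝓝 x₁, IsX D y → InX D O y := by
    have hback : swX' x₁ = p := by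
      refine ext_slots ?_ ?_ ?_ ?_ ?_
      case refine_5 => intro j; simp [hx₁, swX, swX']
      all_goals simp [hx₁, swX, swX', hp, pt, a0, hu]
    have ht : Tendsto (swX' (s := s) (r := r)) (𝓝 x₁) (𝓝 p) := by
      rw [← hback]
      exact contDiff_swX'.continuous.tendsto x₁
    filter_upwards [ht.eventually (local_slice2 h (a0 := a0) (fun _ => hAd) rfl)] with z hz hzX
    have := (pullX_swX (D := D) (O := O)).inX (hz (isX_swX hzX).2)
    rwa [swX_swX' hzX.1] at this
  let q : Fin r := ⟨0, by have := h.two_r; omega⟩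
  have hspec : Spec (x₁ (Sum.inl ((1 : Fin 2), false))) lam (Xw r) (Yw r) := by
    rw [v2]; exact spec_hC lam
  refine inX_of_near fun N hN => ?_
  obtain ⟨y, hyN, hy, hgood⟩ :=
    exists_goodPtX_near le_rfl h.two_r h.seed.detD (L := (1 : Fin 2)) rfl q hx hS hN
  exact ⟨y, hyN, inX_of_good h.two_r h.seed.detD rfl q hspec h.indep hloc
    (fun N hN => exists_goodPtX_near le_rfl h.two_r h.seed.detD (L := (1 : Fin 2)) rfl q hX1 hS1 hN)
    hy hgood⟩

end Vale.Agent.P002.G2
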