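import Vale.Agent.P002.G2.Velo

/-!
# P002: the steps fill the tangent space in genus two

A functional killing the velocities gives values on the letters and on the lag slot.  After
subtracting a coboundary they solve the rigid system of `G2.System`.
-/

namespace Vale.Agent.P002.G2

open Matrix Filter Topology Vale.Agent.P002.Sb
open scoped Matrix.Norms.Operator

set_option backward.isDefEq.respectTransparency false

variable {r s : ℕ} {α β A : Matrix (Fin r) (Fin r) ℂ} {D : Fin s → Matrix (Fin r) (Fin r) ℂ}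

/-- The equations killing the velocities. -/
structure Eqs (α β A : Matrix (Fin r) (Fin r) ℂ) (D : Fin s → Matrix (Fin r) (Fin r) ℂ)
    (μ : Matrix (Fin r) (Fin r) ℂ) (φ : Ltr s → Matrix (Fin r) (Fin r) ℂ) : Prop where
  word : ∀ w, trace (A * (μ * wVal α β D w + wVal α β D w * coc α β D φ w)) = 0
  power : ∀ k : ℕ, trace (μ * A ^ k) = 0
  mixed : ∀ m n : ℕ, 1 ≤ m →
    trace (μ * ∑ l ∈ Finset.range m, A ^ l * (β * α ^ n * A ^ m) * adjugate A ^ l) +
      trace (φ (Sum.inl false) *
        X1 α (A ^ m * (β * α ^ n * A ^ m) * adjugate A ^ m) (β * α ^ n * A ^ m) n) +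
      trace (φ (Sum.inl true) *
        (α ^ n * (A ^ m * (β * α ^ n * A ^ m) * adjugate A ^ m) * adjugate α ^ n)) = 0

/-- The coboundary of `v` at a matrix. -/
def cob (v x : Matrix (Fin r) (Fin r) ℂ) : Matrix (Fin r) (Fin r) ℂ := v - adjugate x * v * x

theorem trace_cob {x : Matrix (Fin r) (Fin r) ℂ} (hx : x.det = 1) (v Z : Matrix (Fin r) (Fin r) ℂ) :
    trace (cob v x * Z) = -trace (v * (x * Z * adjugate x - Z)) := by
  rw [cob, sub_mul, trace_sub, mul_sub, trace_sub, neg_sub]
  congr 1
  rw [mul_assoc (adjugate x * v), mul_assoc (adjugate x), trace_mul_comm (adjugate x)]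
  simp only [mul_assoc]

theorem trace_cob_zero {x : Matrix (Fin r) (Fin r) ℂ} (hx : x.det = 1)
    (v : Matrix (Fin r) (Fin r) ℂ) : trace (cob v x) = 0 := by
  rw [cob, trace_sub, (trace_conj hx v).2, sub_self]

theorem coc_cob (h : SeedOK α β D) (φ : Ltr s → Matrix (Fin r) (Fin r) ℂ)
    (v : Matrix (Fin r) (Fin r) ℂ) : ∀ w,
    coc α β D (fun l => φ l - cob v (ltrVal α β D l)) w = coc α β D φ w - cob v (wVal α β D w)
  | [] => by simp [coc, cob, wVal]
  | l :: w => by
    rw [coc, coc, coc_cob h φ v w]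
    simp only [cob, wVal, adjugate_mul_distrib, mul_sub, sub_mul, mul_assoc]
    abel

theorem sum_conj_cob {x : Matrix (Fin r) (Fin r) ℂ} (hx : x.det = 1)
    (v Z : Matrix (Fin r) (Fin r) ℂ) : ∀ n : ℕ,
    trace (cob v x * ∑ j ∈ Finset.range n, x ^ j * Z * adjugate x ^ j) =
      trace (v * Z) - trace (v * (x ^ n * Z * adjugate x ^ n))
  | 0 => by simp
  | n + 1 => by
    rw [Finset.sum_range_succ, mul_add, trace_add, sum_conj_cob hx v Z n, trace_cob hx, mul_sub,
      trace_sub, pow_succ' x, pow_succ (adjugate x)]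
    simp only [mul_assoc]
    abel

/-- The equations are invariant under coboundaries. -/
theorem Eqs.sub_cob (h : SeedOK α β D) (hA : A.det = 1) {μ : Matrix (Fin r) (Fin r) ℂ}
    {φ : Ltr s → Matrix (Fin r) (Fin r) ℂ} (e : Eqs α β A D μ φ)
    (v : Matrix (Fin r) (Fin r) ℂ) :
    Eqs α β A D (μ - cob v A) fun l => φ l - cob v (ltrVal α β D l) where
  word w := by
    obtain ⟨a1, a2⟩ := mul_adj_cancel hA
    obtain ⟨w1, w2⟩ := mul_adj_cancel (det_wVal h w)
    have e0 := e.word w
    rw [coc_cob h, ← e0]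
    set W := wVal α β D w
    have k1 : trace (A * (cob v A * W)) = trace (A * (v * W)) - trace (v * (A * W)) := by
      rw [cob, sub_mul, mul_sub, trace_sub, ← mul_assoc A (adjugate A * v * A),
        ← mul_assoc A (adjugate A * v), ← mul_assoc A (adjugate A), a1, one_mul, mul_assoc]
    have k2 : trace (A * (W * cob v W)) = trace (A * (W * v)) - trace (A * (v * W)) := by
      rw [cob, mul_sub, mul_sub, trace_sub, ← mul_assoc W (adjugate W * v),
        ← mul_assoc W (adjugate W), w1, one_mul]
    rw [sub_mul, mul_sub W, mul_add A, mul_add A, trace_add, trace_add, mul_sub, mul_sub, trace_sub,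
      trace_sub, k1, k2, trace_mul_comm v (A * W), mul_assoc A W v]
    ring
  power k := by
    rw [sub_mul, trace_sub, e.power, trace_cob hA, zero_sub, neg_neg,
      mul_assoc A (A ^ k), show A * (A ^ k * adjugate A) = A ^ k by
        rw [← mul_assoc, ← pow_succ', pow_succ, mul_assoc, (mul_adj_cancel hA).1, mul_one],
      sub_self, mul_zero, trace_zero]
  mixed m n hm := by
    obtain ⟨hp1, hp2⟩ := pow_cancel hA m
    obtain ⟨hq1, hq2⟩ := pow_cancel h.detA n
    have e0 := e.mixed m n hm
    set C := β * α ^ n * A ^ m with hC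
    set Q := A ^ m * C * adjugate A ^ m with hQ
    have hk : β * (α ^ n * Q * adjugate α ^ n) * adjugate β = C := by
      simp only [hQ, hC, mul_assoc, ← mul_assoc (A ^ m) (adjugate A ^ m), hp2, one_mul,
        ← mul_assoc (α ^ n) (adjugate α ^ n), hq2, (mul_adj_cancel h.detB).1, mul_one]
    rw [sub_mul, sub_mul, sub_mul, trace_sub, trace_sub, trace_sub, sum_conj_cob hA, ← hQ, X1,
      mul_sub (cob v (ltrVal α β D (Sum.inl false))), trace_sub]
    simp only [ltrVal] at e0 ⊢
    rw [sum_conj_cob h.detA, trace_cob h.detA, trace_cob (by rw [det_mul, h.detA, h.detB, one_mul]),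
      mul_sub, trace_sub, mul_sub, trace_sub, adjugate_mul_distrib,
      show α * β * (α ^ n * Q * adjugate α ^ n) * (adjugate β * adjugate α) =
        α * C * adjugate α by
          rw [← hk]; simp only [mul_assoc]]
    simp only [X1, mul_sub, trace_sub] at e0 ⊢
    linear_combination e0

theorem trace_diag_mul (f : Fin r → ℂ) (M : Matrix (Fin r) (Fin r) ℂ) :
    trace (diagonal f * M) = ∑ x, f x * M x x := by
  simp [trace, diag, diagonal_mul]

theorem trace_diag_two (P Q : Matrix (Fin r) (Fin r) ℂ) (u v : Fin r → ℂ) :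
    trace (P * (diagonal u * Q * diagonal v)) = ∑ x, u x * ∑ y, v y * (P y x * Q x y) := by
  simp only [trace, diag, Matrix.mul_apply (M := P), mul_diagonal, diagonal_mul, Finset.mul_sum]
  rw [Finset.sum_comm]
  exact Finset.sum_congr rfl fun x _ => Finset.sum_congr rfl fun y _ => by ring

theorem vanish_two {w : Fin r → ℂ} (hw : Function.Injective w) (hw0 : ∀ x, w x ≠ 0)
    {M : Fin r → Fin r → ℂ}
    (h : ∀ p q : ℕ, ∑ x, w x ^ p * ∑ y, w y ^ q * M x y = 0) (x y : Fin r) : M x y = 0 := by
  have h1 : ∀ q : ℕ, ∑ b, w b ^ q * M x b = 0 := fun q =>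
    congrFun (Matrix.eq_zero_of_forall_pow_sum_mul_pow_eq_zero (f := w)
      (v := fun a => ∑ b, w b ^ q * M a b) hw fun p => by
        rw [← h p q]; exact Finset.sum_congr rfl fun a _ => mul_comm _ _) x
  exact congrFun (Matrix.eq_zero_of_forall_pow_sum_mul_pow_eq_zero (f := w)
    (v := fun b => M x b) hw fun q => by
      rw [← h1 q]; exact Finset.sum_congr rfl fun a _ => mul_comm _ _) y

theorem vanish_one {w : Fin r → ℂ} (hw : Function.Injective w) {M : Fin r → ℂ}
    (h : ∀ n : ℕ, ∑ x, w x ^ n * M x = 0) (x : Fin r) : M x = 0 :=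
  congrFun (Matrix.eq_zero_of_forall_pow_sum_mul_pow_eq_zero (f := w) (v := M) hw fun n => by
    rw [← h n]; exact Finset.sum_congr rfl fun a _ => mul_comm _ _) x

open Polynomial in
theorem vanish_double {w : Fin r → ℂ} (hw : Function.Injective w) (hw0 : ∀ x, w x ≠ 0)
    {p q : Fin r → ℂ} (h : ∀ n : ℕ, ∑ x, w x ^ n * (p x + (n : ℂ) * q x) = 0) (x : Fin r) :
    p x = 0 ∧ q x = 0 := by
  have hP : ∀ P : ℂ[X], ∑ y, (p y * P.eval (w y) + q y * (w y * P.derivative.eval (w y))) = 0 := by
    intro P
    induction P using Polynomial.induction_on' with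
    | add P Q hP hQ =>
      rw [← add_zero (0 : ℂ)]
      conv_rhs => arg 1; rw [← hP]
      conv_rhs => arg 2; rw [← hQ]
      rw [← Finset.sum_add_distrib]
      exact Finset.sum_congr rfl fun y _ => by simp only [eval_add, derivative_add]; ring
    | monomial n c =>
      rw [← mul_zero c, ← h n, Finset.mul_sum]
      refine Finset.sum_congr rfl fun y _ => ?_
      rw [derivative_monomial, eval_monomial, eval_monomial]
      rcases n with _ | n
      · simp; ring
      · rw [show n + 1 - 1 = n from rfl, pow_succ]; ring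
  set P : ℂ[X] := ∏ y ∈ Finset.univ.erase x, (X - C (w y)) ^ 2 with hPdef
  have hz : ∀ y, y ≠ x → P.eval (w y) = 0 ∧ P.derivative.eval (w y) = 0 := by
    intro y hy
    have hd : (X - C (w y)) ^ 2 ∣ P :=
      Finset.dvd_prod_of_mem _ (Finset.mem_erase.2 ⟨hy, Finset.mem_univ _⟩)
    obtain ⟨R, hR⟩ := hd
    simp [hR, derivative_pow]
  have hx : P.eval (w x) ≠ 0 := by
    rw [hPdef, eval_prod]
    refine Finset.prod_ne_zero_iff.2 fun y hy => ?_
    rw [eval_pow, eval_sub, eval_X, eval_C]
    exact pow_ne_zero _ (sub_ne_zero.2 fun e => (Finset.mem_erase.1 hy).1 (hw e).symm)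
  have h1 := hP (P * (X - C (w x)))
  rw [Finset.sum_eq_single x (fun y _ hy => by simp [(hz y hy).1, (hz y hy).2]) (by simp)] at h1
  have hq : q x = 0 := by
    simpa [hw0 x, hx] using h1
  have h2 := hP P
  rw [Finset.sum_eq_single x (fun y _ hy => by simp [(hz y hy).1, (hz y hy).2]) (by simp)] at h2
  exact ⟨by simpa [hq, hx] using h2, hq⟩

theorem wVal_rep (l : Ltr s) : ∀ n : ℕ,
    wVal α β D (List.replicate n l) = ltrVal α β D l ^ n
  | 0 => by simp [wVal]
  | n + 1 => by rw [List.replicate_succ, wVal, wVal_rep l n, pow_succ']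

theorem coc_rep_comm (h : SeedOK α β D) {φ : Ltr s → Matrix (Fin r) (Fin r) ℂ} (l : Ltr s)
    (hc : Commute (φ l) (ltrVal α β D l)) : ∀ n : ℕ,
    coc α β D φ (List.replicate n l) = (n : ℂ) • φ l
  | 0 => by simp [coc]
  | n + 1 => by
    rw [List.replicate_succ, coc, coc_rep_comm h l hc n, wVal_rep, mul_assoc,
      (hc.pow_right n).eq, ← mul_assoc, adjugate_pow,
      (pow_cancel (det_ltrVal h l) n).1, one_mul, Nat.cast_succ, add_smul, one_smul]

theorem coc_rep (h : SeedOK α β D) (φ : Ltr s → Matrix (Fin r) (Fin r) ℂ) (l : Ltr s) : ∀ n : ℕ,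
    ltrVal α β D l ^ n * coc α β D φ (List.replicate n l) =
      dpow (ltrVal α β D l) (ltrVal α β D l * φ l) n
  | 0 => by simp [coc, dpow_zero]
  | n + 1 => by
    rw [List.replicate_succ, coc, wVal_rep, dpow_succ, ← coc_rep h φ l n, pow_succ', mul_add]
    simp only [mul_assoc, ← adjugate_pow]
    rw [(cancel_left (show (ltrVal α β D l ^ n).det = 1 by
      rw [det_pow, det_ltrVal h, one_pow]) _).2]

theorem coc_sandwich (h : SeedOK α β D) {φ : Ltr s → Matrix (Fin r) (Fin r) ℂ}
    (hφ : φ (Sum.inl false) = 0) (u : List (Ltr s)) (p q : ℕ) :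
    wVal α β D (List.replicate p (Sum.inl false) ++ (u ++ List.replicate q (Sum.inl false))) =
        α ^ p * wVal α β D u * α ^ q ∧
      wVal α β D (List.replicate p (Sum.inl false) ++ (u ++ List.replicate q (Sum.inl false))) *
          coc α β D φ (List.replicate p (Sum.inl false) ++ (u ++ List.replicate q (Sum.inl false))) =
        α ^ p * (wVal α β D u * coc α β D φ u) * α ^ q := by
  have hr : ∀ n, coc α β D φ (List.replicate n (Sum.inl false)) = 0 := fun n => by
    rw [coc_rep_comm h _ (by rw [hφ]; exact Commute.zero_left _) n, hφ, smul_zero]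
  have e : wVal α β D (List.replicate p (Sum.inl false) ++ (u ++ List.replicate q (Sum.inl false))) =
      α ^ p * wVal α β D u * α ^ q := by
    simp only [wVal_append, wVal_rep, mul_assoc]; rfl
  refine ⟨e, ?_⟩
  rw [e, coc_append h, coc_append h, hr, hr, mul_zero, zero_mul, add_zero, zero_add, wVal_rep]
  simp only [ltrVal, mul_assoc, adjugate_pow, ← mul_assoc (α ^ q) (adjugate α ^ q),
    (pow_cancel h.detA q).2, one_mul]

variable {w : Fin r → ℂ} {o : Fin r} {μ : Matrix (Fin r) (Fin r) ℂ}
  {φ : Ltr s → Matrix (Fin r) (Fin r) ℂ}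

/-- The diagonal part at the first letter vanishes. -/
theorem diag_zero (h : SeedOK (diagonal w) β D) (hw : Function.Injective w) (hw0 : ∀ x, w x ≠ 0)
    (hne : ∀ x y, A x y ≠ 0) (e : Eqs (diagonal w) β A D μ φ) {c : Fin r → ℂ}
    (hc : φ (Sum.inl false) = diagonal c) : c = 0 ∧ ∀ x, (A * μ) x x = 0 := by
  have key : ∀ n : ℕ, ∑ x, w x ^ n * ((A * μ) x x + (n : ℂ) * (A x x * c x)) = 0 := by
    intro n
    have e0 := e.word (List.replicate n (Sum.inl false))
    rw [wVal_rep, coc_rep_comm h _ (by rw [hc]; exact Matrix.commute_diagonal _ _) n, hc, ltrVal,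
      diagonal_pow, mul_add, trace_add, ← mul_assoc, trace_mul_comm (A * μ), trace_diag_mul,
      trace_mul_comm A, Matrix.mul_smul, Matrix.smul_mul, trace_smul, diagonal_mul_diagonal,
      trace_diag_mul, smul_eq_mul, Finset.mul_sum, ← Finset.sum_add_distrib] at e0
    rw [← e0]
    exact Finset.sum_congr rfl fun x _ => by simp only [Pi.pow_apply]; ring
  refine ⟨funext fun x => ?_, fun x => (vanish_double hw hw0 key x).1⟩
  exact (mul_eq_zero.1 (vanish_double hw hw0 key x).2).resolve_left (hne x x)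

/-- The normalised values solve the rigid system. -/
theorem sys_of_eqs (h : SeedOK (diagonal w) β D) (hw : Function.Injective w) (hw0 : ∀ x, w x ≠ 0)
    (hA : A.det = 1) (hne : ∀ x y, A x y ≠ 0) (e : Eqs (diagonal w) β A D μ φ)
    (hφ : φ (Sum.inl false) = 0) (hfix : ∀ y, (A * μ) o y = 0) :
    Sys A w o β (A * μ) (β * φ (Sum.inl true)) where
  diag0 := (diag_zero h hw hw0 hne e (c := 0) (by rw [hφ, diagonal_zero'])).2
  fix := hfix
  word x y := by
    have key : ∀ p q : ℕ, ∑ x, w x ^ p * ∑ y, w y ^ q *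
        (w x * ((A * μ) y x * β x y + A y x * (β * φ (Sum.inl true)) x y)) = 0 := by
      intro p q
      obtain ⟨e1, e2⟩ := coc_sandwich h hφ [Sum.inl true] p q
      have e0 := e.word (List.replicate p (Sum.inl false) ++
        ([Sum.inl true] ++ List.replicate q (Sum.inl false)))
      rw [e2, e1] at e0
      simp only [wVal, coc, ltrVal, mul_one, adjugate_one, one_mul, zero_add] at e0
      rw [mul_add, trace_add, ← mul_assoc A μ,
        show diagonal w ^ p * (diagonal w * β) * diagonal w ^ q =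
          diagonal (w ^ (p + 1)) * β * diagonal (w ^ q) by
            rw [← diagonal_pow, pow_succ, ← diagonal_pow]; simp only [mul_assoc],
        show diagonal w ^ p * (diagonal w * β * φ (Sum.inl true)) * diagonal w ^ q =
          diagonal (w ^ (p + 1)) * (β * φ (Sum.inl true)) * diagonal (w ^ q) by
            rw [← diagonal_pow, pow_succ, ← diagonal_pow]; simp only [mul_assoc],
        trace_diag_two, trace_diag_two, ← Finset.sum_add_distrib] at e0
      rw [← e0]
      refine Finset.sum_congr rfl fun x _ => ?_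
      simp only [Finset.mul_sum, ← Finset.sum_add_distrib, Pi.pow_apply]
      exact Finset.sum_congr rfl fun y _ => by ring
    exact (mul_eq_zero.1 (vanish_two hw hw0 key x y)).resolve_left (hw0 x)
  twist m hm x := by
    refine vanish_one hw
      (M := fun y => (dpow A (A * μ) m * β + A ^ m * (β * φ (Sum.inl true))) y y) (fun n => ?_) x
    have e0 := e.mixed m n hm
    obtain ⟨hp1, hp2⟩ := pow_cancel hA m
    obtain ⟨hq1, hq2⟩ := pow_cancel h.detA n
    rw [hφ, zero_mul, trace_zero, add_zero] at e0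
    have k1 : trace (μ * ∑ l ∈ Finset.range m,
        A ^ l * (β * diagonal w ^ n * A ^ m) * adjugate A ^ l) =
        trace (diagonal w ^ n * (dpow A (A * μ) m * β)) := by
      rw [dpow, Finset.mul_sum, Finset.sum_mul, Finset.mul_sum, trace_sum, trace_sum]
      refine Finset.sum_congr rfl fun l hl => ?_
      rw [Finset.mem_range] at hl
      have ha : A ^ m * adjugate A ^ l = A ^ (m - 1 - l) * A := by
        rw [← pow_succ, show m - 1 - l + 1 = m - l by omega]
        conv_lhs => rw [← Nat.sub_add_cancel hl.le, pow_add, mul_assoc, (pow_cancel hA l).2, mul_one]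
      calc trace (μ * (A ^ l * (β * diagonal w ^ n * A ^ m) * adjugate A ^ l))
          = trace ((μ * A ^ l * β) * (diagonal w ^ n * (A ^ m * adjugate A ^ l))) := by
            simp only [mul_assoc]
        _ = trace (diagonal w ^ n * (A ^ m * adjugate A ^ l) * (μ * A ^ l * β)) :=
            trace_mul_comm _ _
        _ = _ := by rw [ha]; simp only [mul_assoc]
    have k2 : trace (φ (Sum.inl true) * (diagonal w ^ n *
        (A ^ m * (β * diagonal w ^ n * A ^ m) * adjugate A ^ m) * adjugate (diagonal w) ^ n)) =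
        trace (diagonal w ^ n * (A ^ m * (β * φ (Sum.inl true)))) := by
      simp only [mul_assoc, hp2, mul_one, hq2]
      rw [trace_mul_comm]
      simp only [mul_assoc]
    rw [k1, k2, ← trace_add, ← mul_add, diagonal_pow, trace_diag_mul] at e0
    exact e0
  power k := by
    rw [mul_assoc, trace_mul_comm, mul_assoc, ← pow_succ]
    exact e.power (k + 1)
  cycle L x := by
    refine vanish_one hw (M := fun y => (A * μ * (diagonal w * β) ^ L +
      A * dpow (diagonal w * β) (diagonal w * (β * φ (Sum.inl true))) L) y y) (fun n => ?_) x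
    obtain ⟨e1, e2⟩ := coc_sandwich h hφ (List.replicate L (Sum.inl true)) 0 n
    have e0 := e.word (List.replicate 0 (Sum.inl false) ++
      (List.replicate L (Sum.inl true) ++ List.replicate n (Sum.inl false)))
    rw [e2, e1, wVal_rep, coc_rep h φ] at e0
    simp only [pow_zero, one_mul, ltrVal, mul_assoc (diagonal w) β] at e0
    rw [mul_add, trace_add, ← mul_assoc, ← mul_assoc (A * μ), trace_mul_comm,
      ← mul_assoc A, trace_mul_comm (A * _), ← trace_add, ← mul_add, diagonal_pow,
      trace_diag_mul] at e0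
    exact e0

/-- With a rigid system every solution is a coboundary. -/
theorem exists_gauge (h : SeedOK (diagonal w) β D) (hw : Function.Injective w)
    (hw0 : ∀ x, w x ≠ 0) (hA : A.det = 1) (hne : ∀ x y, A x y ≠ 0)
    (hsys : ∀ ρ Γ, Sys A w o β ρ Γ → ρ = 0 ∧ Γ = 0) (e : Eqs (diagonal w) β A D μ φ) :
    ∃ v, μ = cob v A ∧ ∀ l, φ l = cob v (ltrVal (diagonal w) β D l) := by
  classical
  have hαd := h.detA
  set v₁ : Matrix (Fin r) (Fin r) ℂ := of fun x y =>
    if x = y then 0 else φ (Sum.inl false) x y / (1 - w y / w x) with hv₁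
  have hadj : ∀ v : Matrix (Fin r) (Fin r) ℂ, ∀ x y,
      (adjugate (diagonal w) * v * diagonal w) x y = v x y * (w y / w x) := by
    intro v x y
    have hi : adjugate (diagonal w) = diagonal fun x => (w x)⁻¹ := by
      have e1 : diagonal w * diagonal (fun x => (w x)⁻¹) = 1 := by
        rw [diagonal_mul_diagonal, ← diagonal_one]
        exact congrArg diagonal (funext fun x => mul_inv_cancel₀ (hw0 x))
      conv_lhs => rw [← mul_one (adjugate (diagonal w)), ← e1, (cancel_left hαd _).1]
    rw [hi, mul_diagonal, diagonal_mul]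
    ring
  have e1 := e.sub_cob h hA v₁
  set μ₁ := μ - cob v₁ A
  set φ₁ := fun l => φ l - cob v₁ (ltrVal (diagonal w) β D l)
  have hd1 : φ₁ (Sum.inl false) = diagonal fun x => φ₁ (Sum.inl false) x x := by
    ext x y
    by_cases hxy : x = y
    · subst hxy; simp
    · have h1 : 1 - w y / w x ≠ 0 := fun e => hxy (hw (by
        have := sub_eq_zero.1 e
        field_simp [hw0 x] at this
        exact this))
      rw [diagonal_apply_ne _ hxy]
      simp only [φ₁, Matrix.sub_apply, cob, ltrVal, hadj]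
      simp only [hv₁, of_apply, if_neg hxy]
      field_simp
      ring
  obtain ⟨hc, hdiag⟩ := diag_zero h hw hw0 hne e1 hd1
  have hf1 : φ₁ (Sum.inl false) = 0 := by rw [hd1, hc, diagonal_zero']
  set d : Fin r → ℂ := fun y => (A * μ₁) o y / A o y
  have e2 := e1.sub_cob h hA (diagonal d)
  set μ₂ := μ₁ - cob (diagonal d) A
  set φ₂ := fun l => φ₁ l - cob (diagonal d) (ltrVal (diagonal w) β D l)
  have hf2 : φ₂ (Sum.inl false) = 0 := by
    ext x y
    simp only [φ₂, hf1, zero_sub, Matrix.neg_apply, cob, Matrix.sub_apply, ltrVal, hadj]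
    by_cases hxy : x = y
    · subst hxy; simp [hw0 x]
    · simp [hxy]
  have hdo : d o = 0 := by simp [d, hdiag o]
  have hfix : ∀ y, (A * μ₂) o y = 0 := fun y => by
    have e3 : A * μ₂ = A * μ₁ - (A * diagonal d - diagonal d * A) := by
      simp only [μ₂, cob, mul_sub, ← mul_assoc, (mul_adj_cancel hA).1, one_mul]
    rw [e3, Matrix.sub_apply, Matrix.sub_apply, mul_diagonal, diagonal_mul, hdo, zero_mul, sub_zero]
    simp only [d]
    rw [mul_div_cancel₀ _ (hne o y), sub_self]
  obtain ⟨hρ, hΓ⟩ := hsys _ _ (sys_of_eqs h hw hw0 hA hne e2 hf2 hfix)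
  have hμ : μ₂ = 0 := by
    rw [← (cancel_left hA μ₂).1, hρ, mul_zero]
  have ht : φ₂ (Sum.inl true) = 0 := by
    rw [← (cancel_left h.detB (φ₂ (Sum.inl true))).1, hΓ, mul_zero]
  have hj : ∀ j, φ₂ (Sum.inr j) = 0 := by
    intro j
    set G := ltrVal (diagonal w) β D (Sum.inr j)
    have key : ∀ p q : ℕ, ∑ x, w x ^ p * ∑ y, w y ^ q * (A y x * (G * φ₂ (Sum.inr j)) x y) = 0 := by
      intro p q
      obtain ⟨e1', e2'⟩ := coc_sandwich h hf2 [Sum.inr j] p q
      have e0 := e2.word (List.replicate p (Sum.inl false) ++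
        ([Sum.inr j] ++ List.replicate q (Sum.inl false)))
      rw [e2', e1', hμ, zero_mul, zero_add] at e0
      simp only [wVal, coc, mul_one, adjugate_one, one_mul, zero_add] at e0
      rw [diagonal_pow, diagonal_pow, trace_diag_two] at e0
      exact e0
    have hz : G * φ₂ (Sum.inr j) = 0 := by
      ext x y
      exact (mul_eq_zero.1 (vanish_two hw hw0 key x y)).resolve_left (hne y x)
    rw [← (cancel_left (det_ltrVal h (Sum.inr j)) (φ₂ (Sum.inr j))).1, hz, mul_zero]
  refine ⟨v₁ + diagonal d, ?_, fun l => ?_⟩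
  · have := hμ
    simp only [μ₂, μ₁, cob, sub_eq_zero] at this
    simp only [cob, mul_add, add_mul]
    rw [sub_eq_iff_eq_add] at this
    rw [this]; abel
  · have hz : φ₂ l = 0 := by
      rcases l with (_ | _) | j
      exacts [hf2, ht, hj j]
    simp only [φ₂, φ₁, cob, sub_eq_zero] at hz
    simp only [cob, mul_add, add_mul]
    rw [sub_eq_iff_eq_add] at hz
    rw [hz]; abel

variable {a0 : Fin 2 → Matrix (Fin r) (Fin r) ℂ}

/-- A functional killing the free variations and the velocities kills the kernel of the relation. -/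
theorem functional_zero (hr : r ≠ 0) (h : SeedOK (diagonal w) β D) (hw : Function.Injective w)
    (hw0 : ∀ x, w x ≠ 0) (ha : ∀ i, (a0 i).det = 1) (hne : ∀ x y, a0 0 x y ≠ 0)
    (hsys : ∀ ρ Γ, Sys (a0 0) w o β ρ Γ → ρ = 0 ∧ Γ = 0) (f : PT 2 s r ℂ →ₗ[ℂ] ℂ)
    (hfa : ∀ Z, trace Z = 0 → f (Pi.single (Sum.inl (0, false)) Z) = 0)
    (hfs : ∀ p : Stp s, p.Ok → f (vel (diagonal w) β D (a0 0) p) = 0)
    {Y : PT 2 s r ℂ} (hY : ∀ k, trace (Y k) = 0)
    (hR : relV 1 (diagonal w) β D a0 Y = 0) : f Y = 0 := by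
  classical
  set α := diagonal w with hα
  set A := a0 0 with hA0
  have hAd : A.det = 1 := ha 0
  have hrepr : ∀ T : Matrix (Fin r) (Fin r) ℂ →ₗ[ℂ] PT 2 s r ℂ,
      ∃ u : Matrix (Fin r) (Fin r) ℂ, trace u = 0 ∧ ∀ X, trace X = 0 → f (T X) = trace (u * X) := by
    intro T
    obtain ⟨u, hu⟩ := exists_trace_repr (f.comp T)
    exact ⟨tl u, trace_tl hr u, fun X hX => by rw [(trace_tl_mul hX u).1]; exact hu X⟩
  have hlin : ∀ l : Ltr s, ∃ T : Matrix (Fin r) (Fin r) ℂ →ₗ[ℂ] PT 2 s r ℂ,
      ∀ X, T X = blkL α β D 1 l X := by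
    intro l
    refine ⟨{ toFun := fun X => blkL α β D 1 l X, map_add' := ?_, map_smul' := ?_ }, fun X => rfl⟩
    · intro X X'
      rcases l with (_ | _) | j <;> funext k <;>
        simp [blkL, Pi.single_apply, mul_add, add_mul] <;> split_ifs <;> abel
    · intro z X
      rcases l with (_ | _) | j <;> funext k <;>
        simp [blkL, Pi.single_apply, Matrix.mul_smul, Matrix.smul_mul] <;> split_ifs <;>
        simp [smul_sub, smul_add]
  choose T hT using hlin
  choose φ hφ0 hφ using fun l => hrepr (T l)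
  obtain ⟨μ, hμ0, hμ⟩ :=
    hrepr (LinearMap.single ℂ (fun _ : Slot 2 s => Matrix (Fin r) (Fin r) ℂ) (Sum.inl (0, true)))
  have hφ' : ∀ l X, trace X = 0 → f (blkL α β D 1 l X) = trace (φ l * X) := fun l X hX => by
    rw [← hT]; exact hφ l X hX
  have hμ' : ∀ X, trace X = 0 → f (Pi.single (Sum.inl (0, true)) X) = trace (μ * X) :=
    fun X hX => hμ X hX
  have hblk : ∀ (u : List (Ltr s)) X, trace X = 0 →
      f (blkW α β D 1 u X) = trace (coc α β D φ u * X) := by
    intro u
    induction u with
    | nil => intro X _; simp [blkW, coc]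
    | cons l u ih =>
      intro X hX
      rw [blkW, map_add, ih X hX, hφ' l _ (by rw [(trace_conj (det_wVal h u) X).1, hX]), coc,
        add_mul, trace_add]
      congr 1
      simp only [mul_assoc]
      rw [trace_mul_comm (adjugate (wVal α β D u))]
      simp only [mul_assoc]
  have hE : Eqs α β A D μ φ := by
    refine ⟨fun u => ?_, fun k => ?_, fun m n hm => ?_⟩
    · set W := wVal α β D u with hW
      have hX : trace (tl (A * W)) = 0 := trace_tl hr _
      obtain ⟨w1, w2⟩ := mul_adj_cancel (det_wVal h u)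
      rw [← hW] at w1 w2
      have h0 := hfs (.word u) trivial
      rw [vel, ← hW, map_add, hμ' _ (by rw [(trace_conj (det_wVal h u) _).1]; exact hX),
        hblk u _ hX] at h0
      have k1 : trace (μ * (W * tl (A * W) * adjugate W)) = trace (A * (μ * W)) := by
        have hz : trace (adjugate W * μ * W) = 0 := by
          rw [hW, (trace_conj (det_wVal h u) _).2]; exact hμ0
        calc trace (μ * (W * tl (A * W) * adjugate W))
            = trace (adjugate W * μ * W * tl (A * W)) := by
              rw [← mul_assoc, trace_mul_comm]; simp only [mul_assoc]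
          _ = trace (adjugate W * μ * W * (A * W)) := (trace_tl_mul hz _).2
          _ = trace (A * (μ * W)) := by
              rw [trace_mul_comm]
              simp only [mul_assoc]
              rw [← mul_assoc W (adjugate W), w1, one_mul]
      have k2 : trace (coc α β D φ u * tl (A * W)) = trace (A * (W * coc α β D φ u)) := by
        rw [(trace_tl_mul (trace_coc h hφ0 u) _).2, trace_mul_comm, mul_assoc]
      rw [k1, k2] at h0
      rw [mul_add, trace_add]
      exact h0
    · have h0 := hfs (.power k) trivial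
      rwa [vel, hμ' _ (trace_tl hr _), (trace_tl_mul hμ0 _).2] at h0
    · have h0 := hfs (.mixed m n) hm
      set C := β * α ^ n * A ^ m with hC
      have htX : trace (tl C) = 0 := trace_tl hr _
      have hAp : ∀ l, (A ^ l).det = 1 := fun l => by rw [det_pow, hAd, one_pow]
      have hαp : ∀ l, (α ^ l).det = 1 := fun l => by rw [det_pow, h.detA, one_pow]
      have c1 : ∀ l (Z : Matrix (Fin r) (Fin r) ℂ),
          trace (A ^ l * Z * adjugate A ^ l) = trace Z := fun l Z => by
        rw [← adjugate_pow]; exact (trace_conj (hAp l) Z).1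
      have c2 : ∀ l (Z : Matrix (Fin r) (Fin r) ℂ),
          trace (α ^ l * Z * adjugate α ^ l) = trace Z := fun l Z => by
        rw [← adjugate_pow]; exact (trace_conj (hαp l) Z).1
      have t0 : trace (∑ l ∈ Finset.range m, A ^ l * tl C * adjugate A ^ l) = 0 := by
        rw [trace_sum]; exact Finset.sum_eq_zero fun l _ => by rw [c1, htX]
      have t1 : trace (X1 α (A ^ m * tl C * adjugate A ^ m) (tl C) n) = 0 := by
        rw [X1, trace_sub, trace_sum, htX, sub_zero]
        exact Finset.sum_eq_zero fun l _ => by rw [c2, c1, htX]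
      have t2 : trace (α ^ n * (A ^ m * tl C * adjugate A ^ m) * adjugate α ^ n) = 0 := by
        rw [c2, c1, htX]
      rw [vel, curve, ← hC, map_add, map_add, hμ' _ t0, hφ' _ _ t1, hφ' _ _ t2] at h0
      obtain ⟨c, hc⟩ : ∃ c : ℂ, tl C = C - c • 1 := ⟨_, rfl⟩
      have one1 : ∀ l, A ^ l * adjugate A ^ l = 1 := fun l => (pow_cancel hAd l).2
      have one2 : ∀ l, α ^ l * adjugate α ^ l = 1 := fun l => (pow_cancel h.detA l).2
      rw [hc] at h0
      simp only [X1, mul_sub, sub_mul, Matrix.mul_smul, Matrix.smul_mul, mul_one, one1, one2,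
        Finset.sum_sub_distrib, Finset.sum_const, Matrix.mul_smul, trace_sub,
        trace_smul, trace_sum, Matrix.mul_one, hμ0, hφ0, smul_zero, sub_zero, zero_mul,
        mul_smul_comm, nsmul_zero] at h0
      simp only [X1, mul_sub, trace_sub]
      exact h0
  obtain ⟨v, hv, hletter⟩ := exists_gauge h hw hw0 hAd hne hsys hE
  have hcy : ∀ (x : Matrix (Fin r) (Fin r) ℂ) (Z : Matrix (Fin r) (Fin r) ℂ),
      trace ((v - adjugate x * v * x) * Z) = -trace (v * (x * Z * adjugate x - Z)) := by
    intro x Z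
    rw [sub_mul, trace_sub, mul_sub, trace_sub, neg_sub]
    congr 1
    rw [mul_assoc (adjugate x * v), mul_assoc (adjugate x), trace_mul_comm (adjugate x)]
    simp only [mul_assoc]
  have hletter' : ∀ l Z, trace Z = 0 → f (blkL α β D 1 l Z) =
      -trace (v * (ltrVal α β D l * Z * adjugate (ltrVal α β D l) - Z)) := fun l Z hZ => by
    rw [hφ' l Z hZ, hletter l, cob, hcy]
  set U := Y (Sum.inl (1, false))
  set V := Y (Sum.inl (1, true))
  obtain ⟨a1, a2⟩ := mul_adj_cancel h.detA
  obtain ⟨b1, b2⟩ := mul_adj_cancel h.detB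
  set Z1 := adjugate α * (U + adjugate β * V * β) * α with hZ1
  set Z2 := adjugate β * V * β - Z1 with hZ2
  have hVB : trace (adjugate β * V * β) = 0 := by rw [(trace_conj h.detB V).2]; exact hY _
  have t1 : trace Z1 = 0 := by
    rw [hZ1, (trace_conj h.detA _).2, trace_add, hVB, add_zero]
    exact hY _
  have t2 : trace Z2 = 0 := by rw [hZ2, trace_sub, hVB, t1, sub_zero]
  have eU : U = α * Z1 * adjugate α - Z1 - Z2 := by
    simp only [hZ2, hZ1, mul_assoc, a1, mul_one, (cancel_left h.detA _).2]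
    abel
  have eV : V = β * (Z1 + Z2) * adjugate β := by
    simp only [hZ2, add_sub_cancel, mul_assoc, b1, mul_one, (cancel_left h.detB _).2]
  let Xj : Fin s → Matrix (Fin r) (Fin r) ℂ := fun j =>
    -(segV α β D j * Y (Sum.inr j) * adjugate (segV α β D j))
  have tj : ∀ j, trace (Xj j) = 0 := fun j => by
    simp only [Xj, trace_neg, (trace_conj (det_segV h j) _).1, hY, neg_zero]
  have edec : Y = Pi.single (Sum.inl (0, false)) (Y (Sum.inl (0, false))) +
      Pi.single (Sum.inl (0, true)) (Y (Sum.inl (0, true))) +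
      blkL α β D 1 (Sum.inl false) Z1 + blkL α β D 1 (Sum.inl true) Z2 +
      ∑ j, blkL α β D 1 (Sum.inr j) (Xj j) := by
    funext k
    rcases k with ⟨k, c⟩ | j
    · fin_cases k <;> cases c
      · simp [blkL, Finset.sum_apply]
      · simp [blkL, Finset.sum_apply]
      · simp [blkL, Finset.sum_apply, Pi.single_apply]
        exact eU.trans (by abel)
      · simp [blkL, Finset.sum_apply, Pi.single_apply]
        exact eV.trans (by simp [mul_add, add_mul])
    · obtain ⟨m1, m2⟩ := mul_adj_cancel (det_segV h j)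
      simp [blkL, Finset.sum_apply, Pi.single_apply, Xj, mul_assoc, m2,
        (cancel_left (det_segV h j) _).1]
  have ej : ∀ j, ltrVal α β D (Sum.inr j) * Xj j * adjugate (ltrVal α β D (Sum.inr j)) - Xj j =
      segV α β D j * (Y (Sum.inr j) - D j * Y (Sum.inr j) * adjugate (D j)) *
        adjugate (segV α β D j) := by
    intro j
    simp only [Xj, ltrVal, adjugate_mul_distrib, adjugate_adjugate_of_det (det_segV h j), mul_neg,
      neg_mul, mul_sub, sub_mul, mul_assoc, (cancel_left (det_segV h j) _).1]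
    abel
  have hRl : cmVar α β (Y (Sum.inl (1, false))) (Y (Sum.inl (1, true))) =
      (α * Z1 * adjugate α - Z1) + ((α * β) * Z2 * adjugate (α * β) - Z2) := by
    show cmVar α β U V = _
    rw [eU, eV]; exact letter_identities h Z1 Z2
  have hfin : f Y = -trace (v * relV 1 α β D a0 Y) := by
    conv_lhs => rw [edec]
    simp only [map_add, map_sum]
    rw [hfa _ (hY _), hμ' _ (hY _), hv, cob, hcy, hletter' _ _ t1, hletter' _ _ t2,
      Finset.sum_congr rfl fun j _ => (hletter' _ _ (tj j)).trans (by rw [ej j])]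
    have e9 : (Finset.univ : Finset (Fin 2)).erase 1 = {0} := by decide
    simp only [relV, hRl, e9, Finset.sum_singleton, ltrVal, mul_add, trace_add, trace_sum_conj,
      Finset.sum_neg_distrib, ← hA0]
    ring
  rw [hfin, hR, mul_zero, trace_zero, neg_zero]

/-- The spanning statement. -/
theorem span_tangent (hr : r ≠ 0) (h : SeedOK (diagonal w) β D) (hw : Function.Injective w)
    (hw0 : ∀ x, w x ≠ 0) (ha : ∀ i, (a0 i).det = 1) (hne : ∀ x y, a0 0 x y ≠ 0)
    (hsys : ∀ ρ Γ, Sys (a0 0) w o β ρ Γ → ρ = 0 ∧ Γ = 0)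
    {Y : PT 2 s r ℂ} (hY : ∀ k, trace (Y k) = 0)
    (hR : relV 1 (diagonal w) β D a0 Y = 0) :
    Y ∈ Submodule.span ℂ
      ({V : PT 2 s r ℂ | ∃ Z, trace Z = 0 ∧ V = Pi.single (Sum.inl (0, false)) Z} ∪
       (vel (diagonal w) β D (a0 0)) '' {p : Stp s | p.Ok}) := by
  by_contra hno
  obtain ⟨f, hf0, hfV⟩ := Submodule.exists_dual_map_eq_bot_of_notMem hno inferInstance
  have hz : ∀ V, V ∈ Submodule.span ℂ _ → f V = 0 := fun V hV => by
    have := Submodule.mem_map_of_mem (f := f) hV
    rwa [hfV, Submodule.mem_bot] at this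
  exact hf0 (functional_zero hr h hw hw0 ha hne hsys f
    (fun Z hZ => hz _ (Submodule.subset_span (Or.inl ⟨Z, hZ, rfl⟩)))
    (fun p hp => hz _ (Submodule.subset_span (Or.inr ⟨p, hp, rfl⟩))) hY hR)

end Vale.Agent.P002.G2
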