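import Vale.Agent.P002.G2.Flow

/-!
# P002: the velocities of the steps in genus two at a slice point

At `(A, 1, α, β)` the flow of `β α ^ n A ^ m` moves the seed handle as two letters do and the free
slot `b` by a sum of conjugates.
-/

namespace Vale.Agent.P002.G2

open Matrix Filter Topology Vale.Agent.P002.Sb
open scoped Matrix.Norms.Operator

set_option backward.isDefEq.respectTransparency false

variable {r s : ℕ}

section slots

variable (x : PT 2 s r ℂ) (a b c d : Matrix (Fin r) (Fin r) ℂ)

@[simp] theorem put_a : put x a b c d (Sum.inl (0, false)) = a := rfl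
@[simp] theorem put_b : put x a b c d (Sum.inl (0, true)) = b := rfl
@[simp] theorem put_c : put x a b c d (Sum.inl (1, false)) = c := rfl
@[simp] theorem put_d : put x a b c d (Sum.inl (1, true)) = d := rfl
@[simp] theorem put_j (j : Fin s) : put x a b c d (Sum.inr j) = x (Sum.inr j) := rfl

theorem ext_slots {x y : PT 2 s r ℂ} (ha : x (Sum.inl (0, false)) = y (Sum.inl (0, false)))
    (hb : x (Sum.inl (0, true)) = y (Sum.inl (0, true)))
    (hc : x (Sum.inl (1, false)) = y (Sum.inl (1, false)))
    (hd' : x (Sum.inl (1, true)) = y (Sum.inl (1, true)))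
    (hj : ∀ j, x (Sum.inr j) = y (Sum.inr j)) : x = y := by
  funext k
  rcases k with ⟨i, e⟩ | j
  · fin_cases i <;> cases e <;> assumption
  · exact hj j

theorem psi_slots : psiX 0 1 x = put x
    (x (Sum.inl (0, false)) * x (Sum.inl (1, false)))
    (adjugate (x (Sum.inl (1, false))) * x (Sum.inl (0, true)) * x (Sum.inl (1, false)))
    (adjugate (x (Sum.inl (1, false))) * x (Sum.inl (0, true)) * x (Sum.inl (1, false)) *
      adjugate (x (Sum.inl (0, true))) * x (Sum.inl (1, false)))
    (x (Sum.inl (1, true)) * (adjugate (x (Sum.inl (1, false))) *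
      adjugate (x (Sum.inl (0, true))) * x (Sum.inl (1, false)))) := by
  refine ext_slots ?_ ?_ ?_ ?_ ?_
  case refine_5 => intro j; simp only [psiX, phiX, onHd, put, Sum.elim_inr]
  all_goals
    simp only [psiX, onHd, psiM, slide, quadAt, psiQ, hd, mid01, put, Sum.elim_inl, if_true, if_neg ne01.symm, cond_false, cond_true,
      adjugate_one, one_mul, mul_one]

theorem phi_slots : phiX 0 1 x = put x
    (x (Sum.inl (0, false)) * (adjugate (x (Sum.inl (0, true))) *
      adjugate (x (Sum.inl (1, false))) * x (Sum.inl (0, true))))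
    (adjugate (x (Sum.inl (0, true))) * x (Sum.inl (1, false)) * x (Sum.inl (0, true)) *
      adjugate (x (Sum.inl (1, false))) * x (Sum.inl (0, true)))
    (adjugate (x (Sum.inl (0, true))) * x (Sum.inl (1, false)) * x (Sum.inl (0, true)))
    (x (Sum.inl (1, true)) * x (Sum.inl (0, true))) := by
  refine ext_slots ?_ ?_ ?_ ?_ ?_
  case refine_5 => intro j; simp only [psiX, phiX, onHd, put, Sum.elim_inr]
  all_goals
    simp only [phiX, onHd, phiM, slide, quadAt, phiQ, hd, mid01, put, Sum.elim_inl, if_true, if_neg ne01.symm, cond_false, cond_true,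
      adjugate_one, one_mul, mul_one]

theorem tbX_slots (m n : ℕ) : tbX 0 m (tbX 1 n x) = put x (x (Sum.inl (0, false)))
    (x (Sum.inl (0, true)) * x (Sum.inl (0, false)) ^ m) (x (Sum.inl (1, false)))
    (x (Sum.inl (1, true)) * x (Sum.inl (1, false)) ^ n) := by
  refine ext_slots ?_ ?_ ?_ ?_ fun j => rfl <;>
    simp only [tbX, onHd, Vale.Agent.P002.twist, hd, Function.update_apply, Prod.mk.injEq, ne01,
      ne01.symm, Bool.false_eq_true, and_false, false_and, and_self, and_true, if_false, put, Sum.elim_inl, if_true, if_neg ne01.symm, cond_false, cond_true]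

theorem tbI_slots (m n : ℕ) : tbI 1 n (tbI 0 m x) = put x (x (Sum.inl (0, false)))
    (x (Sum.inl (0, true)) * adjugate (x (Sum.inl (0, false))) ^ m) (x (Sum.inl (1, false)))
    (x (Sum.inl (1, true)) * adjugate (x (Sum.inl (1, false))) ^ n) := by
  refine ext_slots ?_ ?_ ?_ ?_ fun j => rfl <;>
    simp only [tbI, onHd, Vale.Agent.P002.twist, hd, Function.update_apply, Prod.mk.injEq, ne01,
      ne01.symm, Bool.false_eq_true, and_false, false_and, and_self, and_true, if_false, put, Sum.elim_inl, if_true, if_neg ne01.symm, cond_false, cond_true]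

end slots

/-- The telescoped conjugate sum at the seed handle. -/
theorem seed_sum {α : Matrix (Fin r) (Fin r) ℂ} (hα : α.det = 1)
    (X Q : Matrix (Fin r) (Fin r) ℂ) : ∀ n : ℕ,
    α ^ n * (Q - X) * adjugate α ^ n +
        α ^ n * (∑ l ∈ Finset.range n, adjugate α ^ l *
          (-(adjugate α * (X - Q - α * X * adjugate α) * α)) * α ^ l) * adjugate α ^ n =
      (∑ j ∈ Finset.range n, α ^ j * Q * adjugate α ^ j) - X + α ^ n * Q * adjugate α ^ n
  | 0 => by simp; abel
  | n + 1 => by
    set U := X - Q - α * X * adjugate α with hU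
    have ih := congrArg (fun M => α * M * adjugate α) (seed_sum hα X Q n)
    rw [← hU] at ih
    have e0 : α ^ (n + 1) *
        (adjugate α ^ n * (-(adjugate α * U * α)) * α ^ n) * adjugate α ^ (n + 1) = -U := by
      rw [pow_succ α n, pow_succ' (adjugate α) n]
      obtain ⟨p1, p2⟩ := pow_cancel hα n
      have k1 : α ^ n * α * adjugate α ^ n = α := by
        rw [← pow_succ, pow_succ', mul_assoc, p2, mul_one]
      have k2 : α ^ n * (adjugate α * adjugate α ^ n) = adjugate α := by
        rw [← pow_succ', pow_succ, ← mul_assoc, p2, one_mul]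
      calc _ = -((α ^ n * α * adjugate α ^ n) * (adjugate α * U * α) *
            (α ^ n * (adjugate α * adjugate α ^ n))) := by simp only [mul_assoc, mul_neg, neg_mul]
        _ = _ := by
          rw [k1, k2]
          simp only [mul_assoc, (cancel_left hα _).2, (mul_adj_cancel hα).1, mul_one]
    have eU : -U = Q - X + α * X * adjugate α := by rw [hU]; abel
    rw [Finset.sum_range_succ, Finset.sum_range_succ' (fun j => α ^ j * Q * adjugate α ^ j),
      mul_add (α ^ (n + 1)), add_mul, e0, eU]
    simp only [mul_add, add_mul, mul_sub, sub_mul, Finset.mul_sum, Finset.sum_mul, pow_zero,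
      one_mul, mul_one] at ih ⊢
    simp only [pow_succ' α, pow_succ (adjugate α), mul_assoc] at ih ⊢
    rw [← sub_eq_zero] at ih ⊢
    rw [← ih]
    abel

/-- The seed component of the mixed move. -/
noncomputable def X1 (α Q X : Matrix (Fin r) (Fin r) ℂ) (n : ℕ) : Matrix (Fin r) (Fin r) ℂ :=
  (∑ j ∈ Finset.range n, α ^ j * Q * adjugate α ^ j) - X

/-- The class whose flow a mixed move gives. -/
noncomputable def curve (α β A : Matrix (Fin r) (Fin r) ℂ) (m n : ℕ) : Matrix (Fin r) (Fin r) ℂ :=
  tl (β * α ^ n * A ^ m)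

/-- The velocities of the steps, up to the free slot. -/
noncomputable def vel (α β : Matrix (Fin r) (Fin r) ℂ) (D : Fin s → Matrix (Fin r) (Fin r) ℂ)
    (A : Matrix (Fin r) (Fin r) ℂ) : Stp s → PT 2 s r ℂ
  | .word w => Pi.single (Sum.inl (0, true))
      (wVal α β D w * tl (A * wVal α β D w) * adjugate (wVal α β D w)) +
      blkW α β D 1 w (tl (A * wVal α β D w))
  | .power k => Pi.single (Sum.inl (0, true)) (tl (A ^ k))
  | .mixed m n => Pi.single (Sum.inl (0, true))
      (∑ l ∈ Finset.range m, A ^ l * curve α β A m n * adjugate A ^ l) +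
      blkL α β D 1 (Sum.inl false)
        (X1 α (A ^ m * curve α β A m n * adjugate A ^ m) (curve α β A m n) n) +
      blkL α β D 1 (Sum.inl true)
        (α ^ n * (A ^ m * curve α β A m n * adjugate A ^ m) * adjugate α ^ n)

variable {α β : Matrix (Fin r) (Fin r) ℂ} {D : Fin s → Matrix (Fin r) (Fin r) ℂ}
  {a0 : Fin 2 → Matrix (Fin r) (Fin r) ℂ}

theorem dif_tau {i : Fin 2} {k : ℕ} {x : PT 2 s r ℂ} (hr : r ≠ 0) (hx : ∀ q, (x q).det = 1) :
    DifX (fun t => tauK i k t x) x
      (Pi.single (Sum.inl (i, true))
        (x (Sum.inl (i, true)) * tl (x (Sum.inl (i, false)) ^ k) *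
          adjugate (x (Sum.inl (i, true))))) := by
  intro q
  by_cases hq : q = Sum.inl (i, true)
  · subst hq
    rw [Pi.single_eq_same]
    have := dif_exp (X := tl (x (Sum.inl (i, false)) ^ k)) (hx (Sum.inl (i, true)))
      (trace_tl hr _)
    convert this using 1
    funext t
    simp [tauK, onHd, tau, hd]
  · rw [Pi.single_eq_of_ne hq]
    have e : (fun t => tauK i k t x q) = fun _ => x q := by
      funext t
      rcases q with q | j
      · exact Function.update_of_ne (fun e => hq (by rw [e])) _ _
      · rfl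
    rw [e]
    exact Dif.const (hx q)

theorem dif_mixed (hr : r ≠ 0) (h : SeedOK α β D) (ha : ∀ i, (a0 i).det = 1) (m n : ℕ) :
    ∃ Y : PT 2 s r ℂ, DifX (fun t => GS D (Stp.mixed m n) t (pt 1 α β a0)) (pt 1 α β a0) Y ∧
      ∀ q, q ≠ Sum.inl (0, false) → Y q = vel α β D (a0 0) (Stp.mixed m n) q := by
  set A := a0 0 with hA
  have hAd : A.det = 1 := ha 0
  obtain ⟨α1, α2⟩ := mul_adj_cancel h.detA
  set x₀ := pt (s := s) (1 : Fin 2) α β a0 with hx0
  have hAm : (A ^ m).det = 1 := by rw [det_pow, hAd, one_pow]
  have hαn : (α ^ n).det = 1 := by rw [det_pow, h.detA, one_pow]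
  obtain ⟨d, hd⟩ : ∃ M : Matrix (Fin r) (Fin r) ℂ, M = β * α ^ n := ⟨_, rfl⟩
  have hd1 : d.det = 1 := by rw [hd, det_mul, h.detB, hαn, one_mul]
  obtain ⟨c, hc⟩ : ∃ M : Matrix (Fin r) (Fin r) ℂ, M = adjugate (A ^ m) * α * A ^ m := ⟨_, rfl⟩
  obtain ⟨b, hb⟩ : ∃ M : Matrix (Fin r) (Fin r) ℂ, M = adjugate (A ^ m) * α * A ^ m * adjugate α * A ^ m := ⟨_, rfl⟩
  obtain ⟨a, ha'⟩ : ∃ M : Matrix (Fin r) (Fin r) ℂ, M = A * (adjugate (A ^ m) * adjugate α * A ^ m) := ⟨_, rfl⟩
  obtain ⟨e, he⟩ : ∃ M : Matrix (Fin r) (Fin r) ℂ, M = d * A ^ m := ⟨_, rfl⟩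
  have hc1 : c.det = 1 := by simp [hc, det_adjugate, hAm, h.detA, hAd]
  have he1 : e.det = 1 := by rw [he, det_mul, hd1, hAm, one_mul]
  obtain ⟨X, hX⟩ : ∃ M : Matrix (Fin r) (Fin r) ℂ, M = curve α β A m n := ⟨_, rfl⟩
  have hXe : X = tl e := by rw [hX, curve, he, hd]
  -- the point before the flow
  set y := put x₀ a b (c * e * adjugate c) (adjugate c) with hy
  have hfwd : (Stp.mixed m n).fwd D x₀ = y := by
    show rotX (phiX 0 1 (tbX 0 m (tbX 1 n x₀))) = y
    rw [tbX_slots, phi_slots, rotX]
    refine ext_slots ?_ ?_ ?_ ?_ ?_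
    case refine_5 => intro j; simp only [hy, phiX, onHd, put, Sum.elim_inr]
    all_goals simp [hy, hx0, pt, hA, ha', hb, hc, he, hd, mul_assoc]
  have hydet : ∀ q, (y q).det = 1 := by
    rintro (⟨i, f⟩ | j)
    · fin_cases i <;> cases f <;>
        simp [hy, put, ha', hb, hc1, he1, det_adjugate, hAd, hAm, h.detA]
    · simp [hy, put, hx0, pt]
  -- the flow
  have e1 : tl (c * e * adjugate c) = c * X * adjugate c := by rw [hXe, tl_conj hr hc1]
  have hXc : adjugate c * (c * X * adjugate c) * adjugate (adjugate c) = X := by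
    rw [adjugate_adjugate_of_det hc1]
    simp only [mul_assoc, (cancel_left hc1 _).1, (mul_adj_cancel hc1).2, mul_one]
  have hflow := dif_tau (i := 1) (k := 1) hr hydet
  simp only [pow_one, hy, put_c, put_d, e1, hXc] at hflow
  rw [← hy] at hflow
  set γ := fun t => tauK (s := s) 1 1 t y with hγ
  have hγa : Dif (fun t => γ t (Sum.inl (0, false))) a 0 := by
    simpa [hy, Pi.single_apply] using hflow (Sum.inl (0, false))
  have hγb : Dif (fun t => γ t (Sum.inl (0, true))) b 0 := by
    simpa [hy, Pi.single_apply] using hflow (Sum.inl (0, true))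
  have hγc : Dif (fun t => γ t (Sum.inl (1, false))) (c * e * adjugate c) 0 := by
    simpa [hy, Pi.single_apply] using hflow (Sum.inl (1, false))
  have hγd : Dif (fun t => γ t (Sum.inl (1, true))) (adjugate c) X := by
    simpa [hy, Pi.single_apply] using hflow (Sum.inl (1, true))
  -- undo the rotation
  have hC : Dif (fun t => adjugate (γ t (Sum.inl (1, true)))) c (-(c * X * adjugate c)) := by
    have := hγd.adj
    rwa [adjugate_adjugate_of_det hc1] at this
  have hE : Dif (fun t => γ t (Sum.inl (1, true)) * γ t (Sum.inl (1, false)) *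
      adjugate (γ t (Sum.inl (1, true)))) e 0 := by
    have := (hγd.mul hγc).mul hC
    convert this using 1
    · simp only [mul_assoc, (cancel_left hc1 _).1, (mul_adj_cancel hc1).2, mul_one]
    · have k : adjugate c * (c * e * adjugate c) = e * adjugate c := by
        simp only [mul_assoc, (cancel_left hc1 _).1]
      rw [k, adjugate_mul_distrib, adjugate_adjugate_of_det hc1, mul_zero, zero_mul, add_zero,
        mul_neg, neg_mul]
      simp only [mul_assoc, (cancel_left hc1 _).1]
      rw [← mul_assoc e, show e * X * adjugate e = X by rw [hXe, tl_commute hr he1], add_neg_cancel]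
  -- undo the slide
  have qa := hγa.mul hC
  have qb := (hC.adj.mul hγb).mul hC
  have qc := (qb.mul hγb.adj).mul hC
  have qd := hE.mul ((hC.adj.mul hγb.adj).mul hC)
  have k0 : a * c = A := by
    simp only [ha', hc, mul_assoc, (cancel_left hAm _).2, (cancel_left h.detA _).1,
      (mul_adj_cancel hAm).2, mul_one]
  have k1 : adjugate c * b = A ^ m * adjugate c := by
    simp only [hc, hb, adjugate_mul_distrib, adjugate_adjugate_of_det hAm, mul_assoc,
      (cancel_left hAm _).1, (cancel_left hAm _).2, (cancel_left h.detA _).1]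
  have k2 : adjugate c * b * c = A ^ m := by
    rw [k1, mul_assoc, (mul_adj_cancel hc1).2, mul_one]
  have k3 : adjugate c * adjugate b * c = adjugate (A ^ m) := by
    rw [← congrArg adjugate k2]
    simp only [adjugate_mul_distrib, adjugate_adjugate_of_det hc1, mul_assoc]
  have k4 : A ^ m * adjugate b * c = α := by
    simp only [hc, hb, adjugate_mul_distrib, adjugate_adjugate_of_det hAm,
      adjugate_adjugate_of_det h.detA, mul_assoc, (cancel_left hAm _).1, (cancel_left hAm _).2,
      (cancel_left h.detA _).1, (mul_adj_cancel hAm).2, mul_one]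
  have hcb : (adjugate c * b).det = 1 := by simp [det_adjugate, hc1, hγb.det]
  have vA : Dif (fun t => γ t (Sum.inl (0, false)) * adjugate (γ t (Sum.inl (1, true)))) A
      (-(A * X * adjugate A)) := by
    rw [k0] at qa
    convert qa using 1
    rw [zero_add, ← k0, adjugate_mul_distrib]
    simp only [mul_neg, neg_mul, mul_assoc]
  have hYc' : -(adjugate c * -(c * X * adjugate c) * c) = X := by
    simp only [mul_neg, neg_mul, neg_neg, mul_assoc, (cancel_left hc1 _).1,
      (mul_adj_cancel hc1).2, mul_one]
  have vB : Dif (fun t => adjugate (adjugate (γ t (Sum.inl (1, true)))) * γ t (Sum.inl (0, true)) *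
      adjugate (γ t (Sum.inl (1, true)))) (A ^ m) (X - A ^ m * X * adjugate (A ^ m)) := by
    rw [k2] at qb
    convert qb using 1
    rw [hYc', mul_zero, zero_mul, add_zero, k1]
    simp only [adjugate_mul_distrib, adjugate_adjugate_of_det hc1, mul_neg, neg_mul, mul_assoc,
      (cancel_left hc1 _).1, ← sub_eq_add_neg]
  set Q := A ^ m * X * adjugate (A ^ m) with hQ
  have vC : Dif (fun t => adjugate (adjugate (γ t (Sum.inl (1, true)))) * γ t (Sum.inl (0, true)) *
      adjugate (γ t (Sum.inl (1, true))) * adjugate (γ t (Sum.inl (0, true))) *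
      adjugate (γ t (Sum.inl (1, true)))) α (X - Q - α * X * adjugate α) := by
    have q' := (vB.mul hγb.adj).mul hC
    rw [k4] at q'
    convert q' using 1
    rw [← k4, adjugate_mul_distrib]
    simp only [mul_neg, neg_mul, mul_zero, zero_mul, neg_zero, add_zero, mul_assoc,
      ← sub_eq_add_neg]
  have vD : Dif (fun t => γ t (Sum.inl (1, true)) * γ t (Sum.inl (1, false)) *
      adjugate (γ t (Sum.inl (1, true))) * (adjugate (adjugate (γ t (Sum.inl (1, true)))) *
        adjugate (γ t (Sum.inl (0, true))) * adjugate (γ t (Sum.inl (1, true))))) d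
      (X - d * X * adjugate d) := by
    have k5 : e * (adjugate c * adjugate b * c) = d := by
      rw [k3, he, mul_assoc, (mul_adj_cancel hAm).1, mul_one]
    rw [k5] at qd
    convert qd using 1
    have k6 : adjugate c * adjugate b = adjugate (A ^ m) * adjugate c := by
      rw [← k3, mul_assoc, mul_assoc, (mul_adj_cancel hc1).1, mul_one]
    rw [hYc', zero_add]
    simp only [mul_zero, zero_mul, neg_zero, add_zero, k6]
    rw [adjugate_mul_distrib, adjugate_adjugate_of_det hc1, adjugate_adjugate_of_det hAm]
    simp only [mul_add, add_mul, mul_neg, neg_mul, mul_assoc, (cancel_left hc1 _).1]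
    rw [← mul_assoc e X, show e * X * adjugate e = X by rw [hXe, tl_commute hr he1]]
    simp only [he, adjugate_mul_distrib, mul_assoc, (cancel_left hAm _).2, ← sub_eq_add_neg]
  -- undo the twists
  have wB := vB.mul (dif_pow vA.adj m)
  have wD := vD.mul (dif_pow vC.adj n)
  obtain ⟨p1, p2⟩ := pow_cancel hAd m
  obtain ⟨q1, q2⟩ := pow_cancel h.detA n
  have hYA' : -(adjugate A * -(A * X * adjugate A) * A) = X := by
    simp only [mul_neg, neg_mul, neg_neg, mul_assoc, (cancel_left hAd _).1,
      (mul_adj_cancel hAd).2, mul_one]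
  rw [hYA', adjugate_adjugate_of_det hAd, adjugate_pow, p2] at wB
  rw [adjugate_adjugate_of_det h.detA] at wD
  rw [hd, mul_assoc β, q2, mul_one] at wD
  let v := vel α β D A (Stp.mixed m n)
  refine ⟨Function.update v (Sum.inl (0, false)) (-(A * X * adjugate A)), fun q => ?_,
    fun q hq => Function.update_of_ne hq _ _⟩
  have eG : ∀ t, GS D (Stp.mixed m n) t x₀ = tbI 1 n (tbI 0 m (psiX 0 1 (rotX' (γ t)))) := by
    intro t
    rw [GS, hfwd]
    rfl
  have hpart : ∀ q, q ≠ Sum.inl (0, false) →
      Function.update v (Sum.inl (0, false)) (-(A * X * adjugate A)) q = v q :=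
    fun q hq => Function.update_of_ne hq _ _
  rcases q with ⟨i, f⟩ | j
  · fin_cases i <;> cases f
    · convert vA using 1
      · funext t
        simp [eG, tbI_slots, psi_slots, rotX']
      · simp [hx0, pt, hA]
      · exact Function.update_self ..
    · convert wB using 1
      · funext t
        simp [eG, tbI_slots, psi_slots, rotX']
      · simp [hx0, pt]
      · show Function.update v (Sum.inl (0, false)) _ (Sum.inl (0, true)) = _
        rw [hpart _ (by simp)]
        have := lag_sum hAd X m
        simp only [← adjugate_pow, hQ] at this ⊢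
        rw [this]
        simp [v, vel, blkL, hX, Pi.single_apply, adjugate_pow]
    · convert vC using 1
      · funext t
        simp [eG, tbI_slots, psi_slots, rotX']
      · simp [hx0, pt]
      · show Function.update v (Sum.inl (0, false)) _ (Sum.inl (1, false)) = _
        rw [hpart _ (by simp)]
        have hs1 := Finset.sum_range_succ' (fun j => α ^ j * Q * adjugate α ^ j) n
        rw [Finset.sum_range_succ] at hs1
        simp only [pow_zero, one_mul, mul_one] at hs1
        have hconj : α * (∑ j ∈ Finset.range n, α ^ j * Q * adjugate α ^ j) * adjugate α =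
            ∑ j ∈ Finset.range n, α ^ (j + 1) * Q * adjugate α ^ (j + 1) := by
          rw [Finset.mul_sum, Finset.sum_mul]
          refine Finset.sum_congr rfl fun j _ => ?_
          simp only [pow_succ' α, pow_succ (adjugate α), mul_assoc]
        simp only [v, vel, blkL, X1, ← hX, ← adjugate_pow A m, ← hQ, Pi.add_apply, Pi.single_apply]
        simp [mul_sub, sub_mul, hconj]
        rw [eq_sub_iff_add_eq] at *
        grind
    · convert wD using 1
      · funext t
        simp [eG, tbI_slots, psi_slots, rotX']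
      · simp [hx0, pt]
      · show Function.update v (Sum.inl (0, false)) _ (Sum.inl (1, true)) = _
        rw [hpart _ (by simp)]
        have hQd : d * Q * adjugate d = X := by
          have k := tl_commute hr he1
          rw [← hXe, he, adjugate_mul_distrib] at k
          simpa only [hQ, mul_assoc] using k
        have key : X - d * X * adjugate d + d * (∑ l ∈ Finset.range n, adjugate α ^ l *
            (-(adjugate α * (X - Q - α * X * adjugate α) * α)) * α ^ l) * adjugate d =
            β * X1 α Q X n * adjugate β + β * (α ^ n * Q * adjugate α ^ n) * adjugate β := by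
          have e9 : X - d * X * adjugate d = d * (Q - X) * adjugate d := by
            rw [mul_sub, sub_mul, hQd]
          rw [e9, X1, hd, adjugate_mul_distrib, adjugate_pow, ← add_mul (β * _),
            ← mul_add β, ← seed_sum h.detA X Q n]
          simp only [mul_add, add_mul, mul_assoc]
        rw [← hd, key]
        simp only [v, vel, blkL, ← hX, ← adjugate_pow A m, ← hQ, Pi.add_apply, Pi.single_apply]
        simp [mul_assoc, mul_add, add_mul]
  · convert Dif.const (det_one (R := ℂ) (n := Fin r)) using 1
    · funext t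
      show GS D (Stp.mixed m n) t x₀ (Sum.inr j) = 1
      rw [eG t]
      simp [tbI_slots, psi_slots, rotX', hγ, tauK, onHd, hy, put, hx0, pt]
    · simp [hx0, pt]
    · rw [hpart _ (by simp)]
      simp [v, vel, blkL]

/-- The velocity of a step. -/
theorem gs_vel (hr : r ≠ 0) (h : SeedOK α β D) (ha : ∀ i, (a0 i).det = 1) : ∀ p : Stp s,
    ∃ Y : PT 2 s r ℂ, DifX (fun t => GS D p t (pt 1 α β a0)) (pt 1 α β a0) Y ∧
      ∀ q, q ≠ Sum.inl (0, false) → Y q = vel α β D (a0 0) p q
  | .mixed m n => dif_mixed hr h ha m n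
  | .power k => by
    refine ⟨_, dif_tau (i := 0) (k := k) hr (det_pt h ha), fun q hq => ?_⟩
    simp [vel, pt, Stp.fwd]
  | .word w => by
    set a1 := Function.update a0 0 (a0 0 * wVal α β D w) with ha1
    have ha1' : ∀ k, (a1 k).det = 1 := det_update ha (det_wVal h w)
    have h0 := dif_tau (i := 0) (k := 1) hr (det_pt (L := (1 : Fin 2)) h ha1')
    obtain ⟨Y, h1, h2, h3, h4, h5⟩ := dif_bwdW h rfl lt01
      (fun k hk hk' => by simp [Pi.single_apply, hk]) w ha h0
    refine ⟨Y, ?_, ?_⟩
    · convert h1 using 1
      funext t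
      show bwdW 1 D 0 w (tauK 0 1 t (fwdW 1 D 0 w _)) = _
      rw [fwdW_pt h rfl lt01 w ha]
    · rintro (⟨i, f⟩ | j) hq
      · fin_cases i <;> cases f
        · exact absurd rfl hq
        · show Y (Sum.inl (0, true)) = _
          rw [h3]
          simp [vel, pt, ha1, blkW_free w _ ne01]
        · show Y (Sum.inl (1, false)) = _
          rw [h4]
          simp [vel, pt, ha1]
        · show Y (Sum.inl (1, true)) = _
          rw [h4]
          simp [vel, pt, ha1]
      · rw [h5]
        simp [vel, pt, ha1]

end Vale.Agent.P002.G2
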