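import Vale.Agent.P002.Kernel

/-!
# P002: the lag matrix for genus two

`X = 1 + J` (`J` all ones) has inverse `1 - c J`, `c = (r + 1)⁻¹`.  For the Cartan subalgebra
`X D X⁻¹` and any permutation `σ`, the only matrices `V` with `[h, V] (x, σ x) = 0` for all `h` in it
are the obvious ones.
-/

namespace Vale.Agent.P002.G2

open Matrix

variable {r : ℕ}

theorem pr (σ : Equiv.Perm (Fin r)) (x : Fin r) : σ (σ⁻¹ x) = x := σ.apply_symm_apply x

theorem pl (σ : Equiv.Perm (Fin r)) (x : Fin r) : σ⁻¹ (σ x) = x := σ.symm_apply_apply x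

/-- The scalar `1 / (r + 1)`. -/
noncomputable def cst (r : ℕ) : ℂ := ((r : ℂ) + 1)⁻¹

theorem cst_ne (r : ℕ) : cst r ≠ 0 := inv_ne_zero (Nat.cast_add_one_ne_zero r)

theorem cst_mul (r : ℕ) : cst r * ((r : ℂ) + 1) = 1 := inv_mul_cancel₀ (Nat.cast_add_one_ne_zero r)

/-- The eigenvector matrix. -/
def Xw (r : ℕ) : Matrix (Fin r) (Fin r) ℂ := of fun a b => (if a = b then 1 else 0) + 1

/-- Its inverse. -/
noncomputable def Yw (r : ℕ) : Matrix (Fin r) (Fin r) ℂ :=
  of fun a b => (if a = b then 1 else 0) - cst r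

theorem Xw_mul_Yw (r : ℕ) : Xw r * Yw r = 1 := by
  ext a b
  simp only [Xw, Yw, Matrix.mul_apply, of_apply, one_apply, add_mul, one_mul, mul_sub,
    Finset.sum_add_distrib, Finset.sum_sub_distrib, Finset.sum_ite_eq, Finset.sum_ite_eq',
    Finset.mem_univ, if_true, ite_mul, zero_mul, Finset.sum_const, Finset.card_univ,
    Fintype.card_fin, nsmul_eq_mul]
  split_ifs <;> linear_combination -(cst_mul r)

/-- The element of the Cartan subalgebra with eigenvalues `n`. -/
noncomputable def hC (n : Fin r → ℂ) : Matrix (Fin r) (Fin r) ℂ := Xw r * diagonal n * Yw r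

theorem hC_apply (n : Fin r → ℂ) (a b : Fin r) :
    hC n a b = (if a = b then n a else 0) - cst r * n a + n b - cst r * ∑ i, n i := by
  simp only [hC, Xw, Yw, Matrix.mul_apply (N := (of fun a b => _ : Matrix (Fin r) (Fin r) ℂ)),
    mul_diagonal, of_apply, add_mul, one_mul, mul_sub, ite_mul, mul_ite, mul_one, mul_zero,
    zero_mul, Finset.sum_add_distrib, Finset.sum_sub_distrib, Finset.mul_sum, Finset.sum_ite_eq,
    Finset.sum_ite_eq', Finset.mem_univ, if_true]
  simp only [← Finset.sum_mul]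
  by_cases h : a = b
  · subst h; simp [← Finset.mul_sum]; ring
  · simp [h, ← Finset.mul_sum]; ring

theorem spec_hC (n : Fin r → ℂ) : Spec (hC n) n (Xw r) (Yw r) := ⟨Xw_mul_Yw r, rfl⟩

/-- The equation at `(x, y)` for the eigenvalue slot `i`. -/
noncomputable def Eqn (V : Matrix (Fin r) (Fin r) ℂ) (x y i : Fin r) : ℂ :=
  ((if x = i then 1 else 0) + 1) * (V i y - cst r * ∑ a, V a y) -
    ((if i = y then 1 else 0) - cst r) * ((∑ a, V x a) + V x i)

theorem comm_apply (n : Fin r → ℂ) (V : Matrix (Fin r) (Fin r) ℂ) (x y : Fin r) :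
    (hC n * V - V * hC n) x y = ∑ i, n i * Eqn V x y i := by
  have h1 : ∀ i, (Yw r * V) i y = V i y - cst r * ∑ a, V a y := fun i => by
    simp [Yw, Matrix.mul_apply, sub_mul, Finset.sum_sub_distrib, Finset.mul_sum]
  have h2 : ∀ i, (V * Xw r) x i = (∑ a, V x a) + V x i := fun i => by
    simp [Xw, Matrix.mul_apply, mul_add, Finset.sum_add_distrib, add_comm]
  rw [Matrix.sub_apply, hC, mul_assoc (Xw r * diagonal n), ← mul_assoc V, ← mul_assoc V,
    Matrix.mul_apply, Matrix.mul_apply, ← Finset.sum_sub_distrib]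
  refine Finset.sum_congr rfl fun i _ => ?_
  rw [mul_diagonal, mul_diagonal, h1, h2]
  simp only [Eqn, Xw, Yw, of_apply]
  ring

theorem row_hC (n : Fin r → ℂ) (x : Fin r) :
    ∑ a, hC n x a = cst r * (n x + ∑ i, n i) := by
  simp only [hC_apply, Finset.sum_add_distrib, Finset.sum_sub_distrib, Finset.sum_ite_eq,
    Finset.mem_univ, if_true, Finset.sum_const, Finset.card_univ, Fintype.card_fin, nsmul_eq_mul]
  linear_combination (-(n x) - ∑ i, n i) * cst_mul r

theorem col_hC (n : Fin r → ℂ) (y : Fin r) :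
    ∑ a, hC n a y = ((r : ℂ) + 1) * n y - ∑ i, n i := by
  simp only [hC_apply, Finset.sum_add_distrib, Finset.sum_sub_distrib, Finset.sum_ite_eq',
    Finset.mem_univ, if_true, Finset.sum_const, Finset.card_univ, Fintype.card_fin, nsmul_eq_mul,
    ← Finset.mul_sum]
  linear_combination -(∑ i, n i) * cst_mul r

/-- The equations for `σ`. -/
def AllEqn (σ : Equiv.Perm (Fin r)) (V : Matrix (Fin r) (Fin r) ℂ) : Prop :=
  ∀ x i, Eqn V x (σ x) i = 0

theorem eqn_of_comm {σ : Equiv.Perm (Fin r)} {V : Matrix (Fin r) (Fin r) ℂ}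
    (h : ∀ (n : Fin r → ℂ) (x : Fin r), (hC n * V - V * hC n) x (σ x) = 0) : AllEqn σ V := by
  classical
  intro x i
  have := h (Pi.single i 1) x
  rw [comm_apply] at this
  simpa [Pi.single_apply, Finset.sum_ite_eq'] using this

theorem comm_of_eqn {σ : Equiv.Perm (Fin r)} {V : Matrix (Fin r) (Fin r) ℂ}
    (h : AllEqn σ V) (n : Fin r → ℂ) (x : Fin r) : (hC n * V - V * hC n) x (σ x) = 0 := by
  rw [comm_apply]
  exact Finset.sum_eq_zero fun i _ => by rw [h x i, mul_zero]

theorem hC_comm (n m : Fin r → ℂ) : hC n * hC m = hC m * hC n := by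
  simp only [hC]
  rw [conj_mul (Xw_mul_Yw r), conj_mul (Xw_mul_Yw r), diagonal_mul_diagonal, diagonal_mul_diagonal]
  simp only [mul_comm]

/-- Subtracting a member of the Cartan subalgebra and an invariant diagonal keeps the equations. -/
theorem AllEqn.sub {σ : Equiv.Perm (Fin r)} {V : Matrix (Fin r) (Fin r) ℂ} (h : AllEqn σ V)
    (m d : Fin r → ℂ) (hd : ∀ x, d (σ x) = d x) : AllEqn σ (V - (hC m + diagonal d)) := by
  refine eqn_of_comm fun n x => ?_
  have e : hC n * (V - (hC m + diagonal d)) - (V - (hC m + diagonal d)) * hC n =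
      (hC n * V - V * hC n) - (hC n * diagonal d - diagonal d * hC n) := by
    simp only [mul_sub, sub_mul, mul_add, add_mul, hC_comm n m]
    abel
  rw [e, Matrix.sub_apply, comm_of_eqn h n x, Matrix.sub_apply, mul_diagonal, diagonal_mul, hd]
  ring

theorem real_cst {r : ℕ} (hr : 2 ≤ r) : ‖cst r‖ < 1 := by
  rw [cst, norm_inv, ← Nat.cast_add_one, Complex.norm_natCast]
  have : (1 : ℝ) < ((r + 1 : ℕ) : ℝ) := by exact_mod_cast (by omega : 1 < r + 1)
  exact inv_lt_one_of_one_lt₀ this

section facts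

variable {σ : Equiv.Perm (Fin r)} {V : Matrix (Fin r) (Fin r) ℂ}

/-- The shifted entries are constant along the cycles, and the total of the column sums vanishes. -/
theorem z_invariant (h : AllEqn σ V) (hR : ∀ x, ∑ a, V x a = 0) (hr : r ≠ 0) :
    (∑ y, ∑ a, V a y) = 0 ∧ ∀ y, V y (σ y) - cst r * ∑ a, V a (σ y) =
      V (σ⁻¹ y) y - cst r * ∑ a, V a y := by
  set C : Fin r → ℂ := fun y => ∑ a, V a y with hC'
  have h2 : ∀ y, (V y (σ y) - cst r * C (σ y)) - (V (σ⁻¹ y) y - cst r * C y) =
      cst r * ∑ a, C a := by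
    intro y
    have h0 : ∀ a, ((if a = σ y then V y a - cst r * C a else 0) + (V y a - cst r * C a)) -
        ((if a = y then V (σ⁻¹ a) y else 0) - cst r * V (σ⁻¹ a) y) = 0 := by
      intro a
      have e := h (σ⁻¹ a) y
      simp only [Eqn, pr, hR, zero_add] at e
      simp only [Equiv.Perm.inv_eq_iff_eq, @eq_comm _ y a] at e
      simp only [hC']
      split_ifs at e ⊢ <;> linear_combination e
    have := Finset.sum_eq_zero (s := Finset.univ) fun a _ => h0 a
    simp only [Finset.sum_sub_distrib, Finset.sum_add_distrib, Finset.sum_ite_eq', Finset.mem_univ,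
      if_true, ← Finset.mul_sum, hR, zero_sub] at this
    rw [Equiv.sum_comp σ⁻¹ fun a => V a y] at this
    simp only [hC'] at this ⊢
    linear_combination this
  have hS : ∑ a, C a = 0 := by
    have h3 := Finset.sum_congr rfl (fun y (_ : y ∈ (Finset.univ : Finset (Fin r))) => h2 y)
    rw [Finset.sum_sub_distrib, Finset.sum_const, Finset.card_univ, Fintype.card_fin,
      nsmul_eq_mul] at h3
    have h4 : ∑ y, (V (σ⁻¹ y) y - cst r * C y) = ∑ y, (V y (σ y) - cst r * C (σ y)) := by
      rw [← Equiv.sum_comp σ fun y => V (σ⁻¹ y) y - cst r * C y]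
      simp only [pl]
    rw [h4, sub_self] at h3
    exact (mul_eq_zero.1 ((mul_eq_zero.1 h3.symm).resolve_left (Nat.cast_ne_zero.2 hr))).resolve_left
      (cst_ne r)
  refine ⟨hS, fun y => sub_eq_zero.1 ?_⟩
  rw [← mul_zero (cst r), ← hS]
  exact h2 y

/-- The diagonal equations at a moved point. -/
theorem moved_facts (h : AllEqn σ V) (hR : ∀ x, ∑ a, V x a = 0) {x : Fin r} (hx : σ x ≠ x) :
    2 * (V x (σ x) - cst r * ∑ a, V a (σ x)) + cst r * V x x = 0 ∧
      V (σ x) (σ x) - cst r * (∑ a, V a (σ x)) - (1 - cst r) * V x (σ x) = 0 := by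
  have e1 := h x x
  have e2 := h x (σ x)
  simp only [Eqn, hR, zero_add, if_neg (Ne.symm hx), if_true] at e1 e2
  exact ⟨by linear_combination e1, by linear_combination e2⟩

/-- The diagonal equation at a fixed point. -/
theorem fixed_facts (h : AllEqn σ V) (hR : ∀ x, ∑ a, V x a = 0) {x : Fin r} (hx : σ x = x) :
    2 * (V x x - cst r * ∑ a, V a x) - (1 - cst r) * V x x = 0 := by
  have e1 := h x x
  simp only [Eqn, hR, zero_add, hx, if_true] at e1
  linear_combination e1

end facts

/-- Only the obvious solutions. -/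
theorem rigid (hr : 2 ≤ r) {σ : Equiv.Perm (Fin r)} {V : Matrix (Fin r) (Fin r) ℂ}
    (hV : AllEqn σ V) : ∃ n d : Fin r → ℂ, (∀ x, d (σ x) = d x) ∧ V = hC n + diagonal d := by
  classical
  have hr0 : r ≠ 0 := by omega
  have hc := cst_ne r
  have hcn : 1 - cst r ≠ 0 := fun e => by
    have := real_cst hr
    rw [← sub_eq_zero.1 e, norm_one] at this
    exact lt_irrefl _ this
  have hcp : 1 + cst r ≠ 0 := fun e => by
    have := real_cst hr
    rw [show cst r = -1 by linear_combination e, norm_neg, norm_one] at this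
    exact lt_irrefl _ this
  have h2c : 2 - cst r ≠ 0 := fun e => by
    have := real_cst hr
    rw [← sub_eq_zero.1 e] at this
    norm_num at this
  -- row sums
  set R : Fin r → ℂ := fun x => ∑ a, V x a with hRdef
  set n₁ : Fin r → ℂ := fun x => R x / cst r - ∑ i, R i with hn₁
  set V₁ := V - (hC n₁ + diagonal (0 : Fin r → ℂ)) with hV₁
  have hE₁ : AllEqn σ V₁ := hV.sub n₁ 0 (fun x => rfl)
  have hR₁ : ∀ x, ∑ a, V₁ x a = 0 := fun x => by
    have hs : ∑ i, n₁ i = ∑ i, R i := by
      simp only [hn₁, Finset.sum_sub_distrib, ← Finset.sum_div, Finset.sum_const, Finset.card_univ,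
        Fintype.card_fin, nsmul_eq_mul]
      field_simp
      linear_combination -(∑ i, R i) * cst_mul r
    have hd0 : (diagonal (0 : Fin r → ℂ)) = 0 := diagonal_zero
    simp only [hV₁, hd0, add_zero, Matrix.sub_apply, Finset.sum_sub_distrib, row_hC, hs]
    show R x - _ = 0
    simp only [hn₁]
    field_simp
    ring
  obtain ⟨hS, hZ⟩ := z_invariant hE₁ hR₁ hr0
  set C : Fin r → ℂ := fun y => ∑ a, V₁ a y with hCdef
  -- the column sums are constant along the cycles
  have hCinv : ∀ x, C (σ x) = C x := by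
    intro x
    by_cases hx : σ x = x
    · rw [hx]
    have key : ∀ y, σ y ≠ y → cst r ^ 2 * (2 - cst r) * C (σ y) =
        (-2 - cst r * (1 - cst r)) * (V₁ y (σ y) - cst r * C (σ y)) := by
      intro y hy
      obtain ⟨e1, -⟩ := moved_facts hE₁ hR₁ (x := σ y) (fun e => hy (σ.injective e))
      obtain ⟨-, e2⟩ := moved_facts hE₁ hR₁ hy
      have hz := hZ (σ y)
      simp only [pl] at hz
      simp only [hCdef] at *
      linear_combination e1 - 2 * hz - cst r * e2
    have hy : σ (σ⁻¹ x) ≠ σ⁻¹ x := by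
      rw [pr]
      intro e
      exact hx (by nth_rewrite 1 [e]; exact pr σ x)
    have k1 := key x hx
    have k2 := key _ hy
    rw [pr] at k2
    have hz : V₁ x (σ x) - cst r * C (σ x) = V₁ (σ⁻¹ x) x - cst r * C x := hZ x
    rw [hz, ← k2] at k1
    exact mul_left_cancel₀ (mul_ne_zero (pow_ne_zero 2 hc) h2c) k1
  -- remove the residual gauge
  set k : ℂ := (r : ℂ) + 1 - cst r with hk
  have hk0 : k ≠ 0 := fun e => by
    have h := cst_mul r
    rw [show (r : ℂ) + 1 = cst r by linear_combination e] at h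
    rcases mul_self_eq_one_iff.1 h with h | h
    · exact hcn (by rw [h, sub_self])
    · exact hcp (by rw [h]; ring)
  set n₂ : Fin r → ℂ := fun x => C x / k with hn₂
  set d : Fin r → ℂ := fun x => -(cst r * n₂ x) with hd
  have hdinv : ∀ x, d (σ x) = d x := fun x => by simp only [hd, hn₂, hCinv]
  set W := V₁ - (hC n₂ + diagonal d) with hW
  have hEW : AllEqn σ W := hE₁.sub n₂ d hdinv
  have hN : ∑ i, n₂ i = 0 := by simp only [hn₂, ← Finset.sum_div]; rw [hS, zero_div]
  have hRW : ∀ x, ∑ a, W x a = 0 := fun x => by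
    simp only [hW, Matrix.sub_apply, Matrix.add_apply, Finset.sum_sub_distrib,
      Finset.sum_add_distrib, row_hC, hR₁, hN, diagonal_apply, Finset.sum_ite_eq, Finset.mem_univ,
      if_true, hd]
    ring
  have hCW : ∀ y, ∑ a, W a y = 0 := fun y => by
    simp only [hW, Matrix.sub_apply, Matrix.add_apply, Finset.sum_sub_distrib,
      Finset.sum_add_distrib, col_hC, hN, diagonal_apply, Finset.sum_ite_eq', Finset.mem_univ,
      if_true, hd]
    show C y - _ = 0
    simp only [hn₂]
    field_simp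
    simp only [hk]
    ring
  obtain ⟨-, hZW⟩ := z_invariant hEW hRW hr0
  have hP : ∀ x, W x (σ x) = 0 ∧ W x x = 0 := by
    intro x
    by_cases hx : σ x = x
    · have e := fixed_facts hEW hRW hx
      rw [hCW] at e
      have : W x x = 0 := (mul_eq_zero.1 (show (1 + cst r) * W x x = 0 by
        linear_combination e)).resolve_left hcp
      exact ⟨by rw [hx, this], this⟩
    · obtain ⟨e1, -⟩ := moved_facts hEW hRW hx
      have hz := hZW x
      rw [hCW, hCW] at hz
      obtain ⟨-, e2⟩ := moved_facts hEW hRW (x := σ⁻¹ x) (by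
        rw [pr]
        intro e
        exact hx (by nth_rewrite 1 [e]; exact pr σ x))
      rw [pr, hCW] at e2
      rw [hCW] at e1
      have hp : (2 + cst r * (1 - cst r)) * W x (σ x) = 0 := by
        linear_combination e1 - cst r * e2 + cst r * (1 - cst r) * hz
      have hne : 2 + cst r * (1 - cst r) ≠ 0 := by
        intro e
        have : (cst r + 1) * (cst r - 2) = 0 := by linear_combination -e
        rcases mul_eq_zero.1 this with h | h
        · exact hcp (by linear_combination h)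
        · exact h2c (by linear_combination -h)
      have hp0 := (mul_eq_zero.1 hp).resolve_left hne
      refine ⟨hp0, (mul_eq_zero.1 (show cst r * W x x = 0 by
        linear_combination e1 - 2 * hp0)).resolve_left hc⟩
  -- contraction
  have hrec : ∀ x i, W i (σ x) = -cst r * W x i := by
    intro x i
    by_cases h1 : i = x
    · subst h1; rw [(hP i).1, (hP i).2, mul_zero]
    by_cases h2 : i = σ x
    · subst h2; rw [(hP (σ x)).2, (hP x).1, mul_zero]
    have e := hEW x i
    simp only [Eqn, hRW, hCW, if_neg (Ne.symm h1), if_neg h2] at e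
    linear_combination e
  have hW0 : W = 0 := by
    obtain ⟨p, -, hp⟩ := Finset.exists_max_image (Finset.univ : Finset (Fin r × Fin r))
      (fun p => ‖W p.1 p.2‖) ⟨(⟨0, by omega⟩, ⟨0, by omega⟩), Finset.mem_univ _⟩
    have h1 := hrec (σ⁻¹ p.2) p.1
    rw [pr] at h1
    have h2 : ‖W p.1 p.2‖ ≤ ‖cst r‖ * ‖W p.1 p.2‖ := by
      conv_lhs => rw [h1, norm_mul, norm_neg]
      exact mul_le_mul_of_nonneg_left (hp (_, _) (Finset.mem_univ _)) (norm_nonneg _)
    have h3 : ‖W p.1 p.2‖ ≤ 0 := by nlinarith [real_cst hr, norm_nonneg (W p.1 p.2)]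
    ext a b
    exact norm_le_zero_iff.1 ((hp (a, b) (Finset.mem_univ _)).trans h3)
  refine ⟨n₁ + n₂, d, hdinv, ?_⟩
  have e : hC (n₁ + n₂) = hC n₁ + hC n₂ := by
    rw [hC, hC, hC, ← add_mul, ← mul_add, diagonal_add]
    rfl
  rw [e]
  rw [hW, sub_eq_zero, hV₁, show diagonal (0 : Fin r → ℂ) = 0 from diagonal_zero, add_zero,
    sub_eq_iff_eq_add] at hW0
  rw [hW0]
  abel

/-- A regular lag matrix without zero entries. -/
theorem exists_lam (hr : 2 ≤ r) : ∃ l : Fin r → ℂ, Indep l ∧ ∏ a, l a = 1 ∧ (∀ a, l a ≠ 0) ∧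
    ∀ x y, hC l x y ≠ 0 := by
  classical
  obtain ⟨l, hl, hl1, hl0⟩ := exists_indep hr
  by_contra hno
  push Not at hno
  let F : Fin r × Fin r → MvPolynomial (Fin r) ℂ := fun p =>
    (if p.1 = p.2 then MvPolynomial.X p.1 else 0) - MvPolynomial.C (cst r) * MvPolynomial.X p.1 +
      MvPolynomial.X p.2 - MvPolynomial.C (cst r) * ∑ i, MvPolynomial.X i
  have hF : ∀ p y, MvPolynomial.eval y (F p) = hC y p.1 p.2 := fun p y => by
    rw [hC_apply]; simp only [F]; split_ifs <;> simp [*]
  let o : Fin r := ⟨0, by omega⟩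
  let o' : Fin r := ⟨1, by omega⟩
  have ho : o ≠ o' := by simp [o, o', Fin.ext_iff]
  have hone : hC (fun _ => (1 : ℂ)) o o' = 0 := by
    have e : hC (fun _ : Fin r => (1 : ℂ)) = 1 := by
      simp [hC, diagonal_one, Xw_mul_Yw]
    rw [e, one_apply_ne ho]
  have hall : ∀ N : ℕ, MvPolynomial.eval (fun a => l a ^ N) (∏ p, F p) = 0 := by
    intro N
    rw [map_prod]
    rcases Nat.eq_zero_or_pos N with rfl | hN
    · exact Finset.prod_eq_zero (Finset.mem_univ (o, o')) (by simpa [hF] using hone)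
    · obtain ⟨x, y, hxy⟩ := hno (fun a => l a ^ N)
        (fun m m' h => by
          have h' : ∀ e : Fin r → ℕ, ∏ a, (l a ^ N) ^ e a = ∏ a, l a ^ (N * e a) := fun e =>
            Finset.prod_congr rfl fun a _ => (pow_mul _ _ _).symm
          rw [h', h'] at h
          intro a b
          have h2 := hl _ _ h a b
          simp only [← mul_add] at h2
          exact Nat.eq_of_mul_eq_mul_left hN h2)
        (by rw [Finset.prod_pow, hl1, one_pow]) (fun a => pow_ne_zero _ (hl0 a))
      exact Finset.prod_eq_zero (Finset.mem_univ (x, y)) (by rw [hF]; exact hxy)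
  have htor : ∀ y : Fin r → ℂ, ∏ a, y a = 1 → MvPolynomial.eval y (∏ p, F p) = 0 := fun y hy =>
    eval_eq_zero_of_pow hall (fun m _ m' _ h => hl m m' h) hy
  have hfull : ∀ y, MvPolynomial.eval y ((∏ p, F p) * ∏ a, MvPolynomial.X a) = 0 := by
    intro y
    rw [map_mul, map_prod (MvPolynomial.eval y) (fun a => MvPolynomial.X a)]
    simp only [MvPolynomial.eval_X]
    by_cases hy : ∏ a, y a = 0
    · rw [hy, mul_zero]
    obtain ⟨t, ht⟩ := IsAlgClosed.exists_pow_nat_eq (∏ a, y a) (by omega : 0 < r)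
    have ht0 : t ≠ 0 := fun e => hy (by rw [← ht, e, zero_pow (by omega)])
    have h1 := htor (fun a => y a / t) (by
      rw [Finset.prod_div_distrib, Finset.prod_const, Finset.card_univ, Fintype.card_fin, ht,
        div_self hy])
    rw [map_prod, Finset.prod_eq_zero_iff] at h1
    obtain ⟨p, -, hp⟩ := h1
    rw [map_prod, Finset.prod_eq_zero (Finset.mem_univ p), zero_mul]
    rw [hF] at hp ⊢
    have e : hC y p.1 p.2 = t * hC (fun a => y a / t) p.1 p.2 := by
      simp only [hC_apply, ← Finset.sum_div]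
      split_ifs <;> field_simp <;> ring
    rw [e, hp, mul_zero]
  have h0 : (∏ p, F p) * ∏ a, MvPolynomial.X a = (0 : MvPolynomial (Fin r) ℂ) :=
    MvPolynomial.funext fun y => by rw [hfull, map_zero]
  rcases mul_eq_zero.1 h0 with h | h
  · obtain ⟨p, -, hp⟩ := Finset.prod_eq_zero_iff.1 h
    by_cases hpp : p.1 = p.2
    · have := hF p fun _ => 1
      rw [hp, map_zero, show hC (fun _ : Fin r => (1 : ℂ)) = 1 by
        simp [hC, diagonal_one, Xw_mul_Yw], hpp, one_apply_eq] at this
      exact zero_ne_one this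
    · have := hF p (Pi.single p.2 1)
      rw [hp, map_zero, hC_apply] at this
      simp [hpp, Pi.single_apply, Finset.sum_ite_eq'] at this
      have h5 := real_cst hr
      rw [← sub_eq_zero.1 this.symm, norm_one] at h5
      exact lt_irrefl _ h5
  · exact Finset.prod_ne_zero_iff.2 (fun a _ => MvPolynomial.X_ne_zero a) h

end Vale.Agent.P002.G2
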